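import Mathlib

open Finset

namespace Vale.Agent.Egypt

noncomputable section

/-- Number of ordered pairs in `A` that agree modulo `N`. -/
def coll (N : ℕ) (A : Finset ℕ) : ℕ :=
  ((A ×ˢ A).filter (fun p : ℕ × ℕ => ((p.1 : ZMod N) = (p.2 : ZMod N)))).card

/-- Number of elements of `A` in a given residue class. -/
def fib (N : ℕ) (A : Finset ℕ) (t : ZMod N) : ℕ :=
  (A.filter (fun x : ℕ => ((x : ZMod N) = t))).card

lemma sum_eq_sum_fib (N : ℕ) [NeZero N] (A : Finset ℕ) (f : ZMod N → ℂ) :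
    ∑ x ∈ A, f (x : ZMod N) = ∑ t : ZMod N, (fib N A t : ℂ) * f t := by
  classical
  have h1 : ∀ t : ZMod N, (fib N A t : ℂ) * f t
      = ∑ x ∈ A, (if (x : ZMod N) = t then f t else 0) := by
    intro t
    simp only [fib, card_filter, Nat.cast_sum, sum_mul]
    refine sum_congr rfl (fun x _ => ?_)
    split_ifs <;> simp
  simp_rw [h1]
  rw [sum_comm]
  refine sum_congr rfl (fun x _ => ?_)
  simp

lemma sum_fib_sq (N : ℕ) [NeZero N] (A : Finset ℕ) :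
    ∑ t : ZMod N, (fib N A t) ^ 2 = coll N A := by
  classical
  have h1 : ∀ t : ZMod N, (fib N A t) ^ 2
      = ∑ p ∈ A ×ˢ A, (if ((p.1 : ZMod N) = t ∧ (p.2 : ZMod N) = t) then 1 else 0) := by
    intro t
    simp only [fib, sq, card_filter]
    rw [sum_mul_sum, ← sum_product']
    refine sum_congr rfl (fun p _ => ?_)
    by_cases h1 : (p.1 : ZMod N) = t <;> by_cases h2 : (p.2 : ZMod N) = t <;> simp [h1, h2]
  simp_rw [h1]
  rw [sum_comm]
  simp only [coll, card_filter]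
  refine sum_congr rfl (fun p _ => ?_)
  by_cases h : (p.1 : ZMod N) = (p.2 : ZMod N)
  · rw [if_pos h]
    rw [Finset.sum_eq_single (p.1 : ZMod N)]
    · simp [h]
    · intro b _ hb
      rw [if_neg]
      rintro ⟨h3, _⟩
      exact hb h3.symm
    · simp
  · rw [if_neg h]
    apply Finset.sum_eq_zero
    intro t _
    rw [if_neg]
    rintro ⟨h3, h4⟩
    exact h (h3.trans h4.symm)

/-- Parseval-type identity for a unit multiplier. -/
lemma sum_normSq_eq (N : ℕ) [NeZero N] (c : ZMod N) (hc : IsUnit c) (B : Finset ℕ) :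
    ∑ t : ZMod N, ‖∑ y ∈ B, (ZMod.stdAddChar (c * t * (y : ZMod N)) : ℂ)‖ ^ 2
      = (N : ℝ) * coll N B := by
  classical
  have hψ := ZMod.isPrimitive_stdAddChar N
  have key : ((∑ t : ZMod N, ‖∑ y ∈ B, (ZMod.stdAddChar (c * t * (y : ZMod N)) : ℂ)‖ ^ 2 : ℝ) : ℂ)
      = ((N : ℝ) * coll N B : ℝ) := by
    push_cast
    have h1 : ∀ t : ZMod N, ((‖∑ y ∈ B, (ZMod.stdAddChar (c * t * (y : ZMod N)) : ℂ)‖ : ℂ)) ^ 2
        = ∑ p ∈ B ×ˢ B, (ZMod.stdAddChar (t * (c * ((p.1 : ZMod N) - (p.2 : ZMod N)))) : ℂ) := by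
      intro t
      rw [← Complex.mul_conj' , map_sum, sum_mul_sum, ← sum_product']
      refine sum_congr rfl (fun p _ => ?_)
      rw [← AddChar.map_neg_eq_conj, ← AddChar.map_add_eq_mul]
      congr 1
      ring
    simp_rw [h1]
    rw [sum_comm]
    have h2 : ∀ p ∈ B ×ˢ B, ∑ t : ZMod N, (ZMod.stdAddChar (t * (c * ((p.1 : ZMod N) - (p.2 : ZMod N)))) : ℂ)
        = if (p.1 : ZMod N) = (p.2 : ZMod N) then (N : ℂ) else 0 := by
      intro p _
      rw [AddChar.sum_mulShift _ hψ]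
      have : c * ((p.1 : ZMod N) - (p.2 : ZMod N)) = 0 ↔ (p.1 : ZMod N) = (p.2 : ZMod N) := by
        rw [hc.mul_right_eq_zero, sub_eq_zero]
      simp only [this, ZMod.card]
      split_ifs <;> simp
    rw [sum_congr rfl h2]
    simp only [coll, card_filter, Nat.cast_sum, mul_sum]
    refine sum_congr rfl (fun p _ => ?_)
    split_ifs <;> simp
  exact_mod_cast key

/-- The bilinear exponential sum bound. -/
theorem bilinear_bound (N : ℕ) [NeZero N] (c : ZMod N) (hc : IsUnit c) (A B : Finset ℕ) :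
    ‖∑ x ∈ A, ∑ y ∈ B, (ZMod.stdAddChar (c * (x : ZMod N) * (y : ZMod N)) : ℂ)‖ ^ 2
      ≤ (N : ℝ) * coll N A * coll N B := by
  classical
  set G : ZMod N → ℂ := fun t => ∑ y ∈ B, (ZMod.stdAddChar (c * t * (y : ZMod N)) : ℂ) with hG
  have h1 : ∑ x ∈ A, ∑ y ∈ B, (ZMod.stdAddChar (c * (x : ZMod N) * (y : ZMod N)) : ℂ)
      = ∑ t : ZMod N, (fib N A t : ℂ) * G t := by
    rw [← sum_eq_sum_fib N A G]
  rw [h1]
  have h2 : ‖∑ t : ZMod N, (fib N A t : ℂ) * G t‖ ≤ ∑ t : ZMod N, (fib N A t : ℝ) * ‖G t‖ := by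
    refine (norm_sum_le _ _).trans (le_of_eq ?_)
    refine sum_congr rfl (fun t _ => ?_)
    simp
  have h3 : (∑ t : ZMod N, (fib N A t : ℝ) * ‖G t‖) ^ 2
      ≤ (∑ t : ZMod N, (fib N A t : ℝ) ^ 2) * ∑ t : ZMod N, ‖G t‖ ^ 2 :=
    sum_mul_sq_le_sq_mul_sq _ _ _
  have h4 : (∑ t : ZMod N, (fib N A t : ℝ) ^ 2) = coll N A := by
    rw [← sum_fib_sq]
    push_cast
    rfl
  have h5 : ∑ t : ZMod N, ‖G t‖ ^ 2 = (N : ℝ) * coll N B := sum_normSq_eq N c hc B
  rw [h4, h5] at h3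
  have h6 : 0 ≤ ∑ t : ZMod N, (fib N A t : ℝ) * ‖G t‖ :=
    sum_nonneg (fun t _ => mul_nonneg (Nat.cast_nonneg _) (norm_nonneg _))
  calc ‖∑ t : ZMod N, (fib N A t : ℂ) * G t‖ ^ 2
      ≤ (∑ t : ZMod N, (fib N A t : ℝ) * ‖G t‖) ^ 2 := by
        exact pow_le_pow_left₀ (norm_nonneg _) h2 2
    _ ≤ (coll N A : ℝ) * ((N : ℝ) * coll N B) := h3
    _ = (N : ℝ) * coll N A * coll N B := by ring

end

end Vale.Agent.Egypt
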