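import Vale.Agent.Egypt.Bilinear

open Finset

namespace Vale.Agent.Egypt

noncomputable section

/-- The bilinear exponential sum over `A × B` modulo `g`. -/
def expSum (g : ℕ) [NeZero g] (A B : Finset ℕ) (a : ZMod g) : ℂ :=
  ∑ x ∈ A, ∑ y ∈ B, (ZMod.stdAddChar (a * (x : ZMod g) * (y : ZMod g)) : ℂ)

lemma char_sum {R ι : Type*} [AddCommMonoid R] (ψ : AddChar R ℂ) (s : Finset ι) (f : ι → R) :
    ψ (∑ i ∈ s, f i) = ∏ i ∈ s, ψ (f i) := by
  classical
  induction s using Finset.induction_on with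
  | empty => simp
  | insert a s ha ih => rw [sum_insert ha, prod_insert ha, AddChar.map_add_eq_mul, ih]

lemma expSum_zero (g : ℕ) [NeZero g] (A B : Finset ℕ) :
    expSum g A B 0 = ((A.card * B.card : ℕ) : ℂ) := by
  simp [expSum]

lemma prod_expSum (g : ℕ) [NeZero g] (A B : Finset ℕ) (l : Fin 6 → ℕ) (a : ZMod g) :
    ∏ k : Fin 6, expSum g A B ((l k : ZMod g) * a)
      = ∑ p ∈ Fintype.piFinset (fun _ : Fin 6 => A ×ˢ B),
          (ZMod.stdAddChar (a * ∑ k : Fin 6, (l k : ZMod g) * ((p k).1 : ZMod g) * ((p k).2 : ZMod g)) : ℂ) := by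
  classical
  have h1 : ∀ k : Fin 6, expSum g A B ((l k : ZMod g) * a)
      = ∑ z ∈ A ×ˢ B, (ZMod.stdAddChar (((l k : ZMod g) * a) * (z.1 : ZMod g) * (z.2 : ZMod g)) : ℂ) := by
    intro k
    rw [expSum, sum_product]
  simp_rw [h1]
  rw [Finset.prod_univ_sum]
  refine sum_congr rfl (fun p _ => ?_)
  rw [← char_sum]
  congr 1
  rw [mul_sum]
  refine sum_congr rfl (fun k _ => ?_)
  ring

/-- If the exponential sums are small for every nonzero `a`, then every residue is a sum of six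
products. -/
theorem cover_of_bound (g : ℕ) [NeZero g] (A B : Finset ℕ) (l : Fin 6 → ℕ) (β : ZMod g → ℝ)
    (hβ0 : ∀ a, 0 ≤ β a)
    (hF : ∀ a : ZMod g, a ≠ 0 → ∀ k : Fin 6,
      ‖expSum g A B ((l k : ZMod g) * a)‖ ^ 2 ≤ ((A.card * B.card : ℕ) : ℝ) ^ 2 * β a)
    (hsum : ∑ a ∈ (univ : Finset (ZMod g)).erase 0, β a ^ 3 < 1)
    (hA : A.Nonempty) (hB : B.Nonempty) (r : ZMod g) :
    ∃ p : Fin 6 → ℕ × ℕ, (∀ k, p k ∈ A ×ˢ B) ∧
      ∑ k : Fin 6, (l k : ZMod g) * ((p k).1 : ZMod g) * ((p k).2 : ZMod g) = r := by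
  classical
  by_contra hno
  push Not at hno
  have hψ := ZMod.isPrimitive_stdAddChar g
  set M : ℝ := ((A.card * B.card : ℕ) : ℝ) with hM
  have hMpos : 0 < M := by
    rw [hM]
    have : 0 < A.card * B.card := Nat.mul_pos (card_pos.mpr hA) (card_pos.mpr hB)
    exact_mod_cast this
  set f : ZMod g → ℂ := fun a => (ZMod.stdAddChar (-(a * r)) : ℂ) *
      ∏ k : Fin 6, expSum g A B ((l k : ZMod g) * a) with hf
  -- the total sum vanishes
  have htotal : ∑ a : ZMod g, f a = 0 := by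
    have h1 : ∀ a : ZMod g, f a = ∑ p ∈ Fintype.piFinset (fun _ : Fin 6 => A ×ˢ B),
        (ZMod.stdAddChar (a * ((∑ k : Fin 6, (l k : ZMod g) * ((p k).1 : ZMod g) * ((p k).2 : ZMod g)) - r)) : ℂ) := by
      intro a
      simp only [hf]
      rw [prod_expSum, mul_sum]
      refine sum_congr rfl (fun p _ => ?_)
      rw [← AddChar.map_add_eq_mul]
      congr 1
      ring
    simp_rw [h1]
    rw [sum_comm]
    apply sum_eq_zero
    intro p hp
    rw [AddChar.sum_mulShift _ hψ]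
    have hp' : ∀ k, p k ∈ A ×ˢ B := by
      intro k
      exact (Fintype.mem_piFinset.mp hp) k
    have hne := hno p hp'
    rw [if_neg (sub_ne_zero.mpr hne)]
    simp
  -- main term
  have hmain : f 0 = ((M ^ 6 : ℝ) : ℂ) := by
    simp only [hf, zero_mul, neg_zero, AddChar.map_zero_eq_one, one_mul, mul_zero]
    simp only [expSum_zero, prod_const, card_univ, Fintype.card_fin, hM]
    push_cast
    rfl
  -- norm bound on the rest
  have hrest : ∀ a ∈ (univ : Finset (ZMod g)).erase 0, ‖f a‖ ≤ M ^ 6 * β a ^ 3 := by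
    intro a ha
    have ha0 : a ≠ 0 := (mem_erase.mp ha).1
    simp only [hf, norm_mul, AddChar.norm_apply, one_mul, norm_prod]
    have h2 : (∏ k : Fin 6, ‖expSum g A B ((l k : ZMod g) * a)‖) ^ 2 ≤ (M ^ 6 * β a ^ 3) ^ 2 := by
      rw [← prod_pow]
      calc ∏ k : Fin 6, ‖expSum g A B ((l k : ZMod g) * a)‖ ^ 2
          ≤ ∏ _k : Fin 6, (M ^ 2 * β a) := by
            apply prod_le_prod
            · intro k _
              positivity
            · intro k _
              exact hF a ha0 k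
        _ = (M ^ 6 * β a ^ 3) ^ 2 := by
            simp only [prod_const, card_univ, Fintype.card_fin]
            ring
    have h3 : 0 ≤ M ^ 6 * β a ^ 3 := mul_nonneg (by positivity) (pow_nonneg (hβ0 a) 3)
    exact (pow_le_pow_iff_left₀ (prod_nonneg (fun _ _ => norm_nonneg _)) h3 (by norm_num)).mp h2
  have hsplit : f 0 = - ∑ a ∈ (univ : Finset (ZMod g)).erase 0, f a := by
    have := add_sum_erase (univ : Finset (ZMod g)) f (mem_univ 0)
    rw [htotal] at this
    exact eq_neg_of_add_eq_zero_left this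
  have hnorm : M ^ 6 ≤ ∑ a ∈ (univ : Finset (ZMod g)).erase 0, M ^ 6 * β a ^ 3 := by
    calc M ^ 6 = ‖f 0‖ := by
          rw [hmain, Complex.norm_real, Real.norm_eq_abs, abs_of_pos (by positivity)]
      _ = ‖∑ a ∈ (univ : Finset (ZMod g)).erase 0, f a‖ := by rw [hsplit, norm_neg]
      _ ≤ ∑ a ∈ (univ : Finset (ZMod g)).erase 0, ‖f a‖ := norm_sum_le _ _
      _ ≤ _ := sum_le_sum hrest
  rw [← mul_sum] at hnorm
  have hM6 : 0 < M ^ 6 := by positivity
  have : M ^ 6 * ∑ a ∈ (univ : Finset (ZMod g)).erase 0, β a ^ 3 < M ^ 6 * 1 :=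
    mul_lt_mul_of_pos_left hsum hM6
  linarith

end

end Vale.Agent.Egypt
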