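import Vale.Agent.Egypt.Cover

open Finset

namespace Vale.Agent.Egypt

noncomputable section

lemma stdAddChar_scale (g u d : ℕ) [NeZero g] [NeZero u] (h : g = d * u) (n : ℕ) :
    (ZMod.stdAddChar (((d * n : ℕ)) : ZMod g) : ℂ) = ZMod.stdAddChar ((n : ℕ) : ZMod u) := by
  have hg : (g : ℂ) ≠ 0 := by exact_mod_cast NeZero.ne g
  have hu : (u : ℂ) ≠ 0 := by exact_mod_cast NeZero.ne u
  have hd : (d : ℂ) ≠ 0 := by
    intro h0
    apply hg
    rw [h]
    push_cast
    rw [h0, zero_mul]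
  calc (ZMod.stdAddChar (((d * n : ℕ)) : ZMod g) : ℂ)
      = ZMod.stdAddChar ((((d * n : ℕ) : ℤ)) : ZMod g) := by simp
    _ = Complex.exp (2 * Real.pi * Complex.I * (((d * n : ℕ) : ℤ) : ℂ) / (g : ℂ)) :=
        ZMod.stdAddChar_coe _
    _ = Complex.exp (2 * Real.pi * Complex.I * (((n : ℕ) : ℤ) : ℂ) / (u : ℂ)) := by
        congr 1
        rw [h]
        push_cast
        field_simp
    _ = ZMod.stdAddChar ((((n : ℕ) : ℤ)) : ZMod u) := (ZMod.stdAddChar_coe _).symm
    _ = ZMod.stdAddChar ((n : ℕ) : ZMod u) := by simp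

/-- The set of primes of `U` not dividing `a`. -/
def supp (g : ℕ) [NeZero g] (U : Finset ℕ) (a : ZMod g) : Finset ℕ :=
  U.filter (fun s => ¬ s ∣ a.val)

lemma prod_pos_of_primes (U : Finset ℕ) (hU : ∀ s ∈ U, s.Prime) : 0 < ∏ s ∈ U, s :=
  prod_pos (fun s hs => (hU s hs).pos)

/-- The exponential sum modulo `g` reduces to a unit multiplier modulo the part `u` of `g` made of
primes not dividing `a`. -/
theorem expSum_bound (U : Finset ℕ) (hU : ∀ s ∈ U, s.Prime) (g : ℕ) [NeZero g]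
    (hg : g = ∏ s ∈ U, s) (a : ZMod g) (u : ℕ) [NeZero u] (hu : u = ∏ s ∈ supp g U a, s)
    (A B : Finset ℕ) :
    ‖expSum g A B a‖ ^ 2 ≤ (u : ℝ) * coll u A * coll u B := by
  classical
  set U' := supp g U a with hU'
  have hsub : U' ⊆ U := filter_subset _ _
  set d := ∏ s ∈ U \ U', s with hd
  have hdu : g = d * u := by
    rw [hg, hu, hd]
    exact (prod_sdiff hsub).symm
  have hdvd : d ∣ a.val := by
    apply Finset.prod_primes_dvd
    · intro s hs
      exact (hU s (mem_sdiff.mp hs).1).prime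
    · intro s hs
      have h1 := mem_sdiff.mp hs
      by_contra h2
      exact h1.2 (mem_filter.mpr ⟨h1.1, h2⟩)
  obtain ⟨α, hα⟩ := hdvd
  have hcop : Nat.Coprime α u := by
    rw [hu]
    apply Nat.Coprime.prod_right
    intro s hs
    have h1 := mem_filter.mp hs
    have hsp := hU s h1.1
    apply Nat.Coprime.symm
    rw [Nat.Prime.coprime_iff_not_dvd hsp]
    intro h2
    apply h1.2
    rw [hα]
    exact Dvd.dvd.mul_left h2 d
  have hunit : IsUnit ((α : ℕ) : ZMod u) := (ZMod.isUnit_iff_coprime α u).mpr hcop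
  have hterm : ∀ x y : ℕ, (ZMod.stdAddChar (a * (x : ZMod g) * (y : ZMod g)) : ℂ)
      = ZMod.stdAddChar (((α : ℕ) : ZMod u) * (x : ZMod u) * (y : ZMod u)) := by
    intro x y
    have h1 : a * (x : ZMod g) * (y : ZMod g) = ((d * (α * x * y) : ℕ) : ZMod g) := by
      have h2 : a = ((a.val : ℕ) : ZMod g) := (ZMod.natCast_zmod_val a).symm
      conv_lhs => rw [h2, hα]
      push_cast
      ring
    rw [h1, stdAddChar_scale g u d hdu]
    congr 1
    push_cast
    ring
  have hsum : expSum g A B a = ∑ x ∈ A, ∑ y ∈ B,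
      (ZMod.stdAddChar (((α : ℕ) : ZMod u) * (x : ZMod u) * (y : ZMod u)) : ℂ) := by
    unfold expSum
    exact sum_congr rfl (fun x _ => sum_congr rfl (fun y _ => hterm x y))
  rw [hsum]
  exact bilinear_bound u _ hunit A B

/-- Number of off-diagonal pairs whose difference is divisible by every prime of `U'`. -/
def offColl (U' A : Finset ℕ) : ℕ :=
  ((A ×ˢ A).filter (fun p : ℕ × ℕ => p.1 ≠ p.2 ∧ ∀ s ∈ U', (s : ℤ) ∣ (p.1 : ℤ) - p.2)).card

lemma coll_le (U' A : Finset ℕ) (u : ℕ) (hu : u = ∏ s ∈ U', s) :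
    coll u A ≤ A.card + offColl U' A := by
  classical
  unfold coll offColl
  have hsub : (A ×ˢ A).filter (fun p : ℕ × ℕ => ((p.1 : ZMod u) = (p.2 : ZMod u)))
      ⊆ (A.image (fun x => (x, x))) ∪
        (A ×ˢ A).filter (fun p : ℕ × ℕ => p.1 ≠ p.2 ∧ ∀ s ∈ U', (s : ℤ) ∣ (p.1 : ℤ) - p.2) := by
    intro p hp
    obtain ⟨hp1, hp2⟩ := mem_filter.mp hp
    by_cases h : p.1 = p.2
    · apply mem_union_left
      refine mem_image.mpr ⟨p.1, (mem_product.mp hp1).1, ?_⟩
      ext <;> simp [h]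
    · apply mem_union_right
      refine mem_filter.mpr ⟨hp1, h, ?_⟩
      intro s hs
      have h1 : ((p.2 : ℤ) : ZMod u) = ((p.1 : ℤ) : ZMod u) := by
        push_cast
        exact hp2.symm
      have h2 := (ZMod.intCast_eq_intCast_iff_dvd_sub (p.2 : ℤ) (p.1 : ℤ) u).mp h1
      have h3 : (s : ℤ) ∣ (u : ℤ) := by
        rw [hu]
        exact_mod_cast dvd_prod_of_mem _ hs
      exact h3.trans h2
  calc _ ≤ ((A.image (fun x => (x, x))) ∪
        (A ×ˢ A).filter (fun p : ℕ × ℕ => p.1 ≠ p.2 ∧ ∀ s ∈ U', (s : ℤ) ∣ (p.1 : ℤ) - p.2)).card :=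
          card_le_card hsub
    _ ≤ (A.image (fun x => (x, x))).card +
        ((A ×ˢ A).filter (fun p : ℕ × ℕ => p.1 ≠ p.2 ∧ ∀ s ∈ U', (s : ℤ) ∣ (p.1 : ℤ) - p.2)).card :=
          card_union_le _ _
    _ ≤ _ := by
        gcongr
        exact card_image_le

lemma supp_mul (U : Finset ℕ) (hU : ∀ s ∈ U, s.Prime) (g : ℕ) [NeZero g]
    (hg : g = ∏ s ∈ U, s) (l : ℕ) (hl : ∀ s ∈ U, ¬ s ∣ l) (a : ZMod g) :
    supp g U ((l : ZMod g) * a) = supp g U a := by
  classical
  unfold supp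
  apply filter_congr
  intro s hs
  have hsg : s ∣ g := by
    rw [hg]
    exact dvd_prod_of_mem _ hs
  have h1 : ((l : ZMod g) * a).val = ((l % g) * a.val) % g := by
    rw [ZMod.val_mul, ZMod.val_natCast]
  rw [h1, Nat.dvd_mod_iff hsg, Nat.Prime.dvd_mul (hU s hs), Nat.dvd_mod_iff hsg]
  have := hl s hs
  tauto

lemma supp_nonempty (U : Finset ℕ) (hU : ∀ s ∈ U, s.Prime) (g : ℕ) [NeZero g]
    (hg : g = ∏ s ∈ U, s) (a : ZMod g) (ha : a ≠ 0) : (supp g U a).Nonempty := by
  classical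
  by_contra hne
  rw [not_nonempty_iff_eq_empty] at hne
  apply ha
  have hall : ∀ s ∈ U, s ∣ a.val := by
    intro s hs
    by_contra h
    have : s ∈ supp g U a := mem_filter.mpr ⟨hs, h⟩
    rw [hne] at this
    simp at this
  have h0 : (∏ s ∈ U, s) ∣ a.val := by
    apply Finset.prod_primes_dvd
    · intro s hs
      exact (hU s hs).prime
    · exact hall
  have h1 : g ∣ a.val := by
    rwa [← hg] at h0
  have h2 : a.val < g := ZMod.val_lt a
  have h3 : a.val = 0 := Nat.eq_zero_of_dvd_of_lt h1 h2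
  exact (ZMod.val_eq_zero a).mp h3

/-- Number of residues with a given support. -/
lemma card_supp_le (U : Finset ℕ) (hU : ∀ s ∈ U, s.Prime) (g : ℕ) [NeZero g]
    (hg : g = ∏ s ∈ U, s) (U' : Finset ℕ) (hsub : U' ⊆ U) :
    ((univ : Finset (ZMod g)).filter (fun a => supp g U a = U')).card ≤ ∏ s ∈ U', s := by
  classical
  set d := ∏ s ∈ U \ U', s with hd
  set u := ∏ s ∈ U', s with hu
  have hdu : g = d * u := by
    rw [hg, hu, hd]
    exact (prod_sdiff hsub).symm
  have hdpos : 0 < d := prod_pos (fun s hs => (hU s (mem_sdiff.mp hs).1).pos)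
  have hupos : 0 < u := prod_pos (fun s hs => (hU s (hsub hs)).pos)
  have hdvd : ∀ a : ZMod g, supp g U a = U' → d ∣ a.val := by
    intro a ha
    apply Finset.prod_primes_dvd
    · intro s hs
      exact (hU s (mem_sdiff.mp hs).1).prime
    · intro s hs
      have h1 := mem_sdiff.mp hs
      by_contra h2
      apply h1.2
      rw [← ha]
      exact mem_filter.mpr ⟨h1.1, h2⟩
  have hcard : ((univ : Finset (ZMod g)).filter (fun a => supp g U a = U')).card ≤ (range u).card := by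
    apply card_le_card_of_injOn (fun a => a.val / d)
    · intro a ha
      have ha' := (mem_filter.mp ha).2
      obtain ⟨k, hk⟩ := hdvd a ha'
      have h2 : a.val < g := ZMod.val_lt a
      simp only [coe_range, Set.mem_Iio]
      rw [hk, Nat.mul_div_cancel_left _ hdpos]
      rw [hk, hdu] at h2
      exact Nat.lt_of_mul_lt_mul_left h2
    · intro a ha b hb hab
      have ha' := (mem_filter.mp ha).2
      have hb' := (mem_filter.mp hb).2
      simp only at hab
      obtain ⟨k, hk⟩ := hdvd a ha'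
      obtain ⟨m, hm⟩ := hdvd b hb'
      rw [hk, hm, Nat.mul_div_cancel_left _ hdpos, Nat.mul_div_cancel_left _ hdpos] at hab
      apply ZMod.val_injective
      rw [hk, hm, hab]
  simpa using hcard

lemma one_add_pow_le (x : ℝ) (hx : 0 ≤ x) (j : ℕ) (hj : 2 * (j : ℝ) * x ≤ 1) :
    (1 + x) ^ j ≤ 1 + 2 * j * x := by
  induction j with
  | zero => simp
  | succ n ih =>
    have h1 : 2 * (n : ℝ) * x ≤ 1 := by
      push_cast at hj
      nlinarith
    have h2 := ih h1
    calc (1 + x) ^ (n + 1) = (1 + x) ^ n * (1 + x) := pow_succ _ _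
      _ ≤ (1 + 2 * n * x) * (1 + x) := by
          apply mul_le_mul_of_nonneg_right h2
          linarith
      _ ≤ 1 + 2 * ((n + 1 : ℕ) : ℝ) * x := by
          push_cast
          nlinarith

/-- Summation over the residues: the total weight of the nonzero residues is small. -/
lemma sum_beta_lt (U : Finset ℕ) (hU : ∀ s ∈ U, s.Prime) (g : ℕ) [NeZero g]
    (hg : g = ∏ s ∈ U, s) (Y : ℕ) (hYs : ∀ s ∈ U, s ≤ Y ^ 4) (hY : 31250 * U.card < Y ^ 2) :
    ∑ a ∈ (univ : Finset (ZMod g)).erase 0,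
      ((25 : ℝ) / ((Y : ℝ) ^ 2) ^ (supp g U a).card) ^ 3 < 1 := by
  classical
  have hYpos : 0 < Y := by
    rcases Nat.eq_zero_or_pos Y with h | h
    · subst h
      simp at hY
    · exact h
  have hYR : (0 : ℝ) < (Y : ℝ) := by exact_mod_cast hYpos
  set x : ℝ := 1 / (Y : ℝ) ^ 2 with hx
  have hx0 : 0 ≤ x := by positivity
  -- group by support
  set t := (U.powerset).erase ∅ with ht
  have hmaps : ∀ a ∈ (univ : Finset (ZMod g)).erase 0, supp g U a ∈ t := by
    intro a ha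
    refine mem_erase.mpr ⟨?_, mem_powerset.mpr (filter_subset _ _)⟩
    exact (supp_nonempty U hU g hg a (mem_erase.mp ha).1).ne_empty
  have hgroup : ∑ a ∈ (univ : Finset (ZMod g)).erase 0,
      ((25 : ℝ) / ((Y : ℝ) ^ 2) ^ (supp g U a).card) ^ 3
      = ∑ U' ∈ t, ∑ a ∈ ((univ : Finset (ZMod g)).erase 0).filter (fun a => supp g U a = U'),
          ((25 : ℝ) / ((Y : ℝ) ^ 2) ^ (supp g U a).card) ^ 3 :=
    (sum_fiberwise_of_maps_to hmaps _).symm
  rw [hgroup]
  have hfib : ∀ U' ∈ t, ∑ a ∈ ((univ : Finset (ZMod g)).erase 0).filter (fun a => supp g U a = U'),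
      ((25 : ℝ) / ((Y : ℝ) ^ 2) ^ (supp g U a).card) ^ 3 ≤ 25 ^ 3 * x ^ U'.card := by
    intro U' hU'
    have hsub : U' ⊆ U := mem_powerset.mp (mem_erase.mp hU').2
    have h1 : ∀ a ∈ ((univ : Finset (ZMod g)).erase 0).filter (fun a => supp g U a = U'),
        ((25 : ℝ) / ((Y : ℝ) ^ 2) ^ (supp g U a).card) ^ 3
          = ((25 : ℝ) / ((Y : ℝ) ^ 2) ^ U'.card) ^ 3 := by
      intro a ha
      rw [(mem_filter.mp ha).2]
    rw [sum_congr rfl h1, sum_const, nsmul_eq_mul]
    have hcard : ((((univ : Finset (ZMod g)).erase 0).filter (fun a => supp g U a = U')).card : ℝ)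
        ≤ ((Y : ℝ) ^ 4) ^ U'.card := by
      have h2 : ((univ : Finset (ZMod g)).erase 0).filter (fun a => supp g U a = U')
          ⊆ (univ : Finset (ZMod g)).filter (fun a => supp g U a = U') :=
        filter_subset_filter _ (erase_subset _ _)
      have h3 := (card_le_card h2).trans (card_supp_le U hU g hg U' hsub)
      have h4 : ∏ s ∈ U', s ≤ (Y ^ 4) ^ U'.card := by
        calc ∏ s ∈ U', s ≤ ∏ _s ∈ U', Y ^ 4 := prod_le_prod' (fun s hs => hYs s (hsub hs))
          _ = (Y ^ 4) ^ U'.card := by simp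
      calc ((((univ : Finset (ZMod g)).erase 0).filter (fun a => supp g U a = U')).card : ℝ)
          ≤ (((Y ^ 4) ^ U'.card : ℕ) : ℝ) := by exact_mod_cast h3.trans h4
        _ = ((Y : ℝ) ^ 4) ^ U'.card := by push_cast; ring
    calc _ ≤ ((Y : ℝ) ^ 4) ^ U'.card * ((25 : ℝ) / ((Y : ℝ) ^ 2) ^ U'.card) ^ 3 := by
          apply mul_le_mul_of_nonneg_right hcard
          positivity
      _ = 25 ^ 3 * x ^ U'.card := by
          have hzpos : (0 : ℝ) < ((Y : ℝ) ^ 2) ^ U'.card := by positivity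
          have h5 : ((Y : ℝ) ^ 4) ^ U'.card = (((Y : ℝ) ^ 2) ^ U'.card) ^ 2 := by
            ring
          have h6 : x ^ U'.card = 1 / ((Y : ℝ) ^ 2) ^ U'.card := by
            rw [hx, one_div_pow]
          rw [h5, h6]
          generalize ((Y : ℝ) ^ 2) ^ U'.card = z at hzpos
          field_simp
  have hsum1 := sum_le_sum hfib
  refine lt_of_le_of_lt hsum1 ?_
  rw [← mul_sum]
  have hpow : ∑ U' ∈ t, x ^ U'.card = (1 + x) ^ U.card - 1 := by
    have h1 : ∑ U' ∈ U.powerset, x ^ U'.card = (1 + x) ^ U.card := by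
      have := Finset.sum_pow_mul_eq_add_pow x 1 U
      simp only [one_pow, mul_one] at this
      rw [this, add_comm]
    have h2 := add_sum_erase U.powerset (fun U' => x ^ U'.card) (empty_mem_powerset U)
    simp only [card_empty, pow_zero] at h2
    rw [← h1, ← h2, ht]
    ring
  rw [hpow]
  have hY2 : (31250 : ℝ) * U.card < (Y : ℝ) ^ 2 := by exact_mod_cast hY
  have hYsq : (0 : ℝ) < (Y : ℝ) ^ 2 := by positivity
  have hjx : 31250 * (U.card : ℝ) * x < 1 := by
    rw [hx, mul_one_div, div_lt_one hYsq]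
    exact hY2
  have hcardnn : (0 : ℝ) ≤ U.card := Nat.cast_nonneg _
  have hjx2 : 2 * (U.card : ℝ) * x ≤ 1 := by
    have h3 : 0 ≤ (U.card : ℝ) * x := mul_nonneg hcardnn hx0
    nlinarith
  have h5 := one_add_pow_le x hx0 U.card hjx2
  have h6 : (25 : ℝ) ^ 3 * ((1 + x) ^ U.card - 1) ≤ 25 ^ 3 * (2 * U.card * x) := by
    apply mul_le_mul_of_nonneg_left _ (by positivity)
    linarith
  have h7 : (25 : ℝ) ^ 3 * (2 * (U.card : ℝ) * x) = 31250 * (U.card : ℝ) * x := by ring
  linarith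

/-- Main covering theorem: flat sets `A`, `B` cover every residue modulo the product of `U`
with six products. -/
theorem cover_flat (U : Finset ℕ) (hU : ∀ s ∈ U, s.Prime) (g : ℕ) [NeZero g]
    (hg : g = ∏ s ∈ U, s) (Y : ℕ) (hYs : ∀ s ∈ U, s ≤ Y ^ 4) (hY : 31250 * U.card < Y ^ 2)
    (A B : Finset ℕ) (hA : Y ^ (3 * U.card) ≤ A.card) (hB : Y ^ (3 * U.card) ≤ B.card)
    (hfA : ∀ U' ⊆ U, offColl U' A * Y ^ (3 * U'.card) ≤ 4 * A.card ^ 2)
    (hfB : ∀ U' ⊆ U, offColl U' B * Y ^ (3 * U'.card) ≤ 4 * B.card ^ 2)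
    (l : Fin 6 → ℕ) (hl : ∀ k, ∀ s ∈ U, ¬ s ∣ l k) (r : ZMod g) :
    ∃ p : Fin 6 → ℕ × ℕ, (∀ k, p k ∈ A ×ˢ B) ∧
      ∑ k : Fin 6, (l k : ZMod g) * ((p k).1 : ZMod g) * ((p k).2 : ZMod g) = r := by
  classical
  have hYpos : 0 < Y := by
    rcases Nat.eq_zero_or_pos Y with h | h
    · subst h
      simp at hY
    · exact h
  have hYR : (0 : ℝ) < (Y : ℝ) := by exact_mod_cast hYpos
  have hYone : 1 ≤ Y := hYpos
  have hApos : 0 < A.card := lt_of_lt_of_le (pow_pos hYpos _) hA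
  have hBpos : 0 < B.card := lt_of_lt_of_le (pow_pos hYpos _) hB
  -- flatness for `coll`
  have hcoll : ∀ (C : Finset ℕ) (hC : Y ^ (3 * U.card) ≤ C.card)
      (hfC : ∀ U' ⊆ U, offColl U' C * Y ^ (3 * U'.card) ≤ 4 * C.card ^ 2) (U' : Finset ℕ)
      (hU' : U' ⊆ U) (u : ℕ) (hu : u = ∏ s ∈ U', s),
      (coll u C : ℝ) * (Y : ℝ) ^ (3 * U'.card) ≤ 5 * (C.card : ℝ) ^ 2 := by
    intro C hC hfC U' hU' u hu
    have h1 := coll_le U' C u hu
    have h2 := hfC U' hU'
    have h3 : Y ^ (3 * U'.card) ≤ C.card := by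
      refine le_trans (Nat.pow_le_pow_right hYpos ?_) hC
      have := card_le_card hU'
      omega
    have h4 : coll u C * Y ^ (3 * U'.card) ≤ 5 * C.card ^ 2 := by
      calc coll u C * Y ^ (3 * U'.card) ≤ (C.card + offColl U' C) * Y ^ (3 * U'.card) :=
            Nat.mul_le_mul_right _ h1
        _ = C.card * Y ^ (3 * U'.card) + offColl U' C * Y ^ (3 * U'.card) := by ring
        _ ≤ C.card * C.card + 4 * C.card ^ 2 := Nat.add_le_add (Nat.mul_le_mul_left _ h3) h2
        _ = 5 * C.card ^ 2 := by ring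
    exact_mod_cast h4
  set β : ZMod g → ℝ := fun a => (25 : ℝ) / ((Y : ℝ) ^ 2) ^ (supp g U a).card with hβ
  apply cover_of_bound g A B l β
  · intro a
    simp only [hβ]
    positivity
  · intro a ha k
    have hsm := supp_mul U hU g hg (l k) (hl k) a
    set U' := supp g U a with hU'
    have hsub : U' ⊆ U := filter_subset _ _
    set u := ∏ s ∈ U', s with hu
    have hupos : 0 < u := prod_pos (fun s hs => (hU s (hsub hs)).pos)
    have : NeZero u := ⟨hupos.ne'⟩
    have hb := expSum_bound U hU g hg ((l k : ZMod g) * a) u (by rw [hsm]) A B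
    have hcA := hcoll A hA hfA U' hsub u hu
    have hcB := hcoll B hB hfB U' hsub u hu
    have hule : (u : ℝ) ≤ ((Y : ℝ) ^ 4) ^ U'.card := by
      have h4 : u ≤ (Y ^ 4) ^ U'.card := by
        calc u ≤ ∏ _s ∈ U', Y ^ 4 := prod_le_prod' (fun s hs => hYs s (hsub hs))
          _ = (Y ^ 4) ^ U'.card := by simp
      calc (u : ℝ) ≤ (((Y ^ 4) ^ U'.card : ℕ) : ℝ) := by exact_mod_cast h4
        _ = ((Y : ℝ) ^ 4) ^ U'.card := by push_cast; ring
    set i := U'.card with hi
    set P : ℝ := (Y : ℝ) ^ (3 * i) with hP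
    have hPpos : 0 < P := by positivity
    have hcA' : (coll u A : ℝ) ≤ 5 * (A.card : ℝ) ^ 2 / P := by
      rw [le_div_iff₀ hPpos]
      exact hcA
    have hcB' : (coll u B : ℝ) ≤ 5 * (B.card : ℝ) ^ 2 / P := by
      rw [le_div_iff₀ hPpos]
      exact hcB
    have hfinal : (u : ℝ) * coll u A * coll u B
        ≤ ((A.card * B.card : ℕ) : ℝ) ^ 2 * ((25 : ℝ) / ((Y : ℝ) ^ 2) ^ i) := by
      calc (u : ℝ) * coll u A * coll u B
          ≤ ((Y : ℝ) ^ 4) ^ i * (5 * (A.card : ℝ) ^ 2 / P) * (5 * (B.card : ℝ) ^ 2 / P) := by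
            gcongr
        _ = ((A.card * B.card : ℕ) : ℝ) ^ 2 * ((25 : ℝ) / ((Y : ℝ) ^ 2) ^ i) := by
            rw [hP]
            push_cast
            field_simp
            ring
    exact hb.trans hfinal
  · exact sum_beta_lt U hU g hg Y hYs hY
  · exact card_pos.mp hApos
  · exact card_pos.mp hBpos

end

end Vale.Agent.Egypt
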