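import Vale.Agent.Egypt.Flat

open Finset

namespace Vale.Agent.Egypt

noncomputable section

/-- Weight of an integer `n` relative to a set of primes `U`. -/
def wt (θ : ℕ) (U : Finset ℕ) (n : ℤ) : ℝ :=
  ∏ s ∈ U, (if (s : ℤ) ∣ n then (1 + (θ : ℝ)) else 1)

lemma wt_nonneg (θ : ℕ) (U : Finset ℕ) (n : ℤ) : 0 ≤ wt θ U n := by
  unfold wt
  apply prod_nonneg
  intro s _
  split_ifs <;> positivity

lemma wt_insert (θ : ℕ) (U : Finset ℕ) (s : ℕ) (hs : s ∉ U) (n : ℤ) :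
    wt θ (insert s U) n = wt θ U n + (θ : ℝ) * (wt θ U n * (if (s : ℤ) ∣ n then 1 else 0)) := by
  unfold wt
  rw [prod_insert hs]
  split_ifs <;> ring

/-- The set of ordered off-diagonal pairs of `A`. -/
def offPairs (A : Finset ℕ) : Finset (ℕ × ℕ) := (A ×ˢ A).filter (fun p : ℕ × ℕ => p.1 ≠ p.2)

/-- Total weight of the differences of `A`. -/
def Phi (θ : ℕ) (U A : Finset ℕ) : ℝ :=
  ∑ p ∈ offPairs A, wt θ U ((p.1 : ℤ) - p.2)

lemma Phi_nonneg (θ : ℕ) (U A : Finset ℕ) : 0 ≤ Phi θ U A :=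
  sum_nonneg (fun _ _ => wt_nonneg _ _ _)

lemma Phi_empty_le (θ : ℕ) (A : Finset ℕ) : Phi θ ∅ A ≤ (A.card : ℝ) ^ 2 := by
  unfold Phi wt
  simp only [prod_empty, sum_const, nsmul_eq_mul, mul_one]
  have h1 : (offPairs A).card ≤ (A ×ˢ A).card := card_filter_le _ _
  rw [card_product] at h1
  have h2 : ((offPairs A).card : ℝ) ≤ ((A.card * A.card : ℕ) : ℝ) := by exact_mod_cast h1
  calc ((offPairs A).card : ℝ) ≤ ((A.card * A.card : ℕ) : ℝ) := h2
    _ = (A.card : ℝ) ^ 2 := by push_cast; ring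

lemma Phi_insert (θ : ℕ) (U A : Finset ℕ) (s : ℕ) (hs : s ∉ U) :
    Phi θ (insert s U) A = Phi θ U A + (θ : ℝ) *
      ∑ p ∈ offPairs A, (wt θ U ((p.1 : ℤ) - p.2) * (if (s : ℤ) ∣ ((p.1 : ℤ) - p.2) then 1 else 0)) := by
  unfold Phi
  rw [mul_sum, ← sum_add_distrib]
  exact sum_congr rfl (fun p _ => wt_insert θ U s hs _)

/-- Averaging the increment over the candidate primes. -/
lemma sum_increment_le (θ ν : ℕ) (U A R : Finset ℕ)
    (hν : ∀ x ∈ A, ∀ x' ∈ A, x ≠ x' →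
      (R.filter (fun s : ℕ => (s : ℤ) ∣ (x : ℤ) - x')).card ≤ ν) :
    ∑ s ∈ R, ∑ p ∈ offPairs A, (wt θ U ((p.1 : ℤ) - p.2) * (if (s : ℤ) ∣ ((p.1 : ℤ) - p.2) then (1 : ℝ) else 0))
      ≤ (ν : ℝ) * Phi θ U A := by
  classical
  rw [sum_comm]
  unfold Phi
  rw [mul_sum]
  apply sum_le_sum
  intro p hp
  have hp' := mem_filter.mp hp
  have hp1 := mem_product.mp hp'.1
  have hcount := hν p.1 hp1.1 p.2 hp1.2 hp'.2
  rw [← mul_sum, mul_comm]
  apply mul_le_mul_of_nonneg_right _ (wt_nonneg _ _ _)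
  have h2 : ∑ s ∈ R, (if (s : ℤ) ∣ ((p.1 : ℤ) - p.2) then (1 : ℝ) else 0)
      = ((R.filter (fun s : ℕ => (s : ℤ) ∣ (p.1 : ℤ) - p.2)).card : ℝ) := by
    rw [card_filter]
    push_cast
    rfl
  rw [h2]
  exact_mod_cast hcount

/-- The potential combining `A` and `B`. -/
def Psi (θ : ℕ) (U A B : Finset ℕ) : ℝ :=
  Phi θ U A / (A.card : ℝ) ^ 2 + Phi θ U B / (B.card : ℝ) ^ 2

lemma Psi_nonneg (θ : ℕ) (U A B : Finset ℕ) : 0 ≤ Psi θ U A B := by
  unfold Psi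
  have := Phi_nonneg θ U A
  have := Phi_nonneg θ U B
  positivity

lemma Psi_empty_le (θ : ℕ) (A B : Finset ℕ) (hA : A.Nonempty) (hB : B.Nonempty) :
    Psi θ ∅ A B ≤ 2 := by
  unfold Psi
  have hA' : (0 : ℝ) < (A.card : ℝ) ^ 2 := by
    have : 0 < A.card := card_pos.mpr hA
    positivity
  have hB' : (0 : ℝ) < (B.card : ℝ) ^ 2 := by
    have : 0 < B.card := card_pos.mpr hB
    positivity
  have h1 : Phi θ ∅ A / (A.card : ℝ) ^ 2 ≤ 1 := (div_le_one hA').mpr (Phi_empty_le θ A)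
  have h2 : Phi θ ∅ B / (B.card : ℝ) ^ 2 ≤ 1 := (div_le_one hB').mpr (Phi_empty_le θ B)
  linarith

/-- One greedy step. -/
lemma greedy_step (θ ν : ℕ) (U A B R : Finset ℕ) (hR : R.Nonempty) (hdisj : ∀ s ∈ R, s ∉ U)
    (hνA : ∀ x ∈ A, ∀ x' ∈ A, x ≠ x' →
      (R.filter (fun s : ℕ => (s : ℤ) ∣ (x : ℤ) - x')).card ≤ ν)
    (hνB : ∀ x ∈ B, ∀ x' ∈ B, x ≠ x' →
      (R.filter (fun s : ℕ => (s : ℤ) ∣ (x : ℤ) - x')).card ≤ ν) :
    ∃ s ∈ R, Psi θ (insert s U) A B ≤ Psi θ U A B * (1 + (θ : ℝ) * ν / R.card) := by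
  classical
  have hRpos : (0 : ℝ) < R.card := by exact_mod_cast card_pos.mpr hR
  have hΨ := Psi_nonneg θ U A B
  set I : ℕ → ℝ := fun s => (θ : ℝ) *
    ((∑ p ∈ offPairs A, (wt θ U ((p.1 : ℤ) - p.2) * (if (s : ℤ) ∣ ((p.1 : ℤ) - p.2) then (1 : ℝ) else 0))) / (A.card : ℝ) ^ 2
      + (∑ p ∈ offPairs B, (wt θ U ((p.1 : ℤ) - p.2) * (if (s : ℤ) ∣ ((p.1 : ℤ) - p.2) then (1 : ℝ) else 0))) / (B.card : ℝ) ^ 2) with hI
  have hinc : ∀ s ∈ R, Psi θ (insert s U) A B = Psi θ U A B + I s := by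
    intro s hs
    unfold Psi
    rw [Phi_insert θ U A s (hdisj s hs), Phi_insert θ U B s (hdisj s hs)]
    simp only [hI]
    ring
  have hsum : ∑ s ∈ R, I s ≤ (θ : ℝ) * ν * Psi θ U A B := by
    have h1 := sum_increment_le θ ν U A R hνA
    have h2 := sum_increment_le θ ν U B R hνB
    simp only [hI]
    rw [← mul_sum, sum_add_distrib, ← sum_div, ← sum_div]
    unfold Psi
    have hθ : (0 : ℝ) ≤ θ := Nat.cast_nonneg _
    have h3 : (∑ s ∈ R, ∑ p ∈ offPairs A, (wt θ U ((p.1 : ℤ) - p.2) * (if (s : ℤ) ∣ ((p.1 : ℤ) - p.2) then (1 : ℝ) else 0))) / (A.card : ℝ) ^ 2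
        ≤ (ν : ℝ) * Phi θ U A / (A.card : ℝ) ^ 2 :=
      div_le_div_of_nonneg_right h1 (by positivity)
    have h4 : (∑ s ∈ R, ∑ p ∈ offPairs B, (wt θ U ((p.1 : ℤ) - p.2) * (if (s : ℤ) ∣ ((p.1 : ℤ) - p.2) then (1 : ℝ) else 0))) / (B.card : ℝ) ^ 2
        ≤ (ν : ℝ) * Phi θ U B / (B.card : ℝ) ^ 2 :=
      div_le_div_of_nonneg_right h2 (by positivity)
    calc _ ≤ (θ : ℝ) * ((ν : ℝ) * Phi θ U A / (A.card : ℝ) ^ 2 + (ν : ℝ) * Phi θ U B / (B.card : ℝ) ^ 2) :=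
          mul_le_mul_of_nonneg_left (add_le_add h3 h4) hθ
      _ = _ := by ring
  have hex : ∃ s ∈ R, I s ≤ (θ : ℝ) * ν * Psi θ U A B / R.card := by
    apply exists_le_of_sum_le hR
    rw [sum_const, nsmul_eq_mul]
    rw [mul_div_cancel₀ _ hRpos.ne']
    exact hsum
  obtain ⟨s, hs, hIs⟩ := hex
  refine ⟨s, hs, ?_⟩
  rw [hinc s hs]
  have : Psi θ U A B * (1 + (θ : ℝ) * ν / R.card)
      = Psi θ U A B + (θ : ℝ) * ν * Psi θ U A B / R.card := by ring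
  rw [this]
  linarith

/-- Iterating the greedy step. -/
theorem exists_flat_set (θ ν j W : ℕ) (P A B : Finset ℕ) (hW : 0 < W) (hcard : W + j ≤ P.card)
    (hjW : 2 * j * θ * ν ≤ W)
    (hνA : ∀ x ∈ A, ∀ x' ∈ A, x ≠ x' →
      (P.filter (fun s : ℕ => (s : ℤ) ∣ (x : ℤ) - x')).card ≤ ν)
    (hνB : ∀ x ∈ B, ∀ x' ∈ B, x ≠ x' →
      (P.filter (fun s : ℕ => (s : ℤ) ∣ (x : ℤ) - x')).card ≤ ν)
    (hA : A.Nonempty) (hB : B.Nonempty) :
    ∃ U ⊆ P, U.card = j ∧ Phi θ U A ≤ 4 * (A.card : ℝ) ^ 2 ∧ Phi θ U B ≤ 4 * (B.card : ℝ) ^ 2 := by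
  classical
  have hWR : (0 : ℝ) < W := by exact_mod_cast hW
  set y : ℝ := (θ : ℝ) * ν / W with hy
  have hy0 : 0 ≤ y := by positivity
  -- iterate
  have key : ∀ i : ℕ, i ≤ j → ∃ U ⊆ P, U.card = i ∧ Psi θ U A B ≤ 2 * (1 + y) ^ i := by
    intro i
    induction i with
    | zero =>
      intro _
      refine ⟨∅, empty_subset _, card_empty, ?_⟩
      simpa using Psi_empty_le θ A B hA hB
    | succ n ih =>
      intro hn
      obtain ⟨U, hUP, hUc, hUb⟩ := ih (Nat.le_of_succ_le hn)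
      set R := P \ U with hR
      have hRc : W ≤ R.card := by
        have h1 : R.card = P.card - U.card := card_sdiff_of_subset hUP
        omega
      have hRne : R.Nonempty := card_pos.mp (lt_of_lt_of_le hW hRc)
      have hmono : ∀ x x' : ℕ, (R.filter (fun s : ℕ => (s : ℤ) ∣ (x : ℤ) - x')).card
          ≤ (P.filter (fun s : ℕ => (s : ℤ) ∣ (x : ℤ) - x')).card := by
        intro x x'
        exact card_le_card (filter_subset_filter _ sdiff_subset)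
      obtain ⟨s, hs, hsb⟩ := greedy_step θ ν U A B R hRne
        (fun s hs => (mem_sdiff.mp hs).2)
        (fun x hx x' hx' hne => (hmono x x').trans (hνA x hx x' hx' hne))
        (fun x hx x' hx' hne => (hmono x x').trans (hνB x hx x' hx' hne))
      refine ⟨insert s U, insert_subset (mem_sdiff.mp hs).1 hUP, ?_, ?_⟩
      · rw [card_insert_of_notMem (mem_sdiff.mp hs).2, hUc]
      · have hRR : (W : ℝ) ≤ R.card := by exact_mod_cast hRc
        have h1 : (θ : ℝ) * ν / R.card ≤ y := by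
          rw [hy]
          apply div_le_div_of_nonneg_left (by positivity) hWR hRR
        calc Psi θ (insert s U) A B ≤ Psi θ U A B * (1 + (θ : ℝ) * ν / R.card) := hsb
          _ ≤ (2 * (1 + y) ^ n) * (1 + y) := by
              apply mul_le_mul hUb (by linarith) _ (by positivity)
              have : (0 : ℝ) ≤ (θ : ℝ) * ν / R.card := by positivity
              linarith
          _ = 2 * (1 + y) ^ (n + 1) := by ring
  obtain ⟨U, hUP, hUc, hUb⟩ := key j le_rfl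
  have h2 : 2 * (j : ℝ) * y ≤ 1 := by
    rw [hy]
    have h3 : ((2 * j * θ * ν : ℕ) : ℝ) ≤ W := by exact_mod_cast hjW
    push_cast at h3
    rw [show 2 * (j : ℝ) * ((θ : ℝ) * ν / W) = (2 * j * θ * ν) / W by ring]
    exact (div_le_one hWR).mpr h3
  have h3 := one_add_pow_le y hy0 j h2
  have h4 : Psi θ U A B ≤ 4 := by
    calc Psi θ U A B ≤ 2 * (1 + y) ^ j := hUb
      _ ≤ 2 * (1 + 2 * j * y) := by linarith
      _ ≤ 4 := by linarith
  have hA' : (0 : ℝ) < (A.card : ℝ) ^ 2 := by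
    have : 0 < A.card := card_pos.mpr hA
    positivity
  have hB' : (0 : ℝ) < (B.card : ℝ) ^ 2 := by
    have : 0 < B.card := card_pos.mpr hB
    positivity
  refine ⟨U, hUP, hUc, ?_, ?_⟩
  · have h5 : Phi θ U A / (A.card : ℝ) ^ 2 ≤ 4 := by
      have h6 : 0 ≤ Phi θ U B / (B.card : ℝ) ^ 2 := div_nonneg (Phi_nonneg _ _ _) hB'.le
      unfold Psi at h4
      linarith
    rwa [div_le_iff₀ hA'] at h5
  · have h5 : Phi θ U B / (B.card : ℝ) ^ 2 ≤ 4 := by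
      have h6 : 0 ≤ Phi θ U A / (A.card : ℝ) ^ 2 := div_nonneg (Phi_nonneg _ _ _) hA'.le
      unfold Psi at h4
      linarith
    rwa [div_le_iff₀ hB'] at h5

/-- The potential controls the off-diagonal collision counts. -/
lemma offColl_mul_le (θ : ℕ) (U U' A : Finset ℕ) (hsub : U' ⊆ U) :
    (offColl U' A : ℝ) * (θ : ℝ) ^ U'.card ≤ Phi θ U A := by
  classical
  unfold offColl Phi
  have hsub2 : (A ×ˢ A).filter (fun p : ℕ × ℕ => p.1 ≠ p.2 ∧ ∀ s ∈ U', (s : ℤ) ∣ (p.1 : ℤ) - p.2)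
      ⊆ offPairs A := by
    intro p hp
    have hp' := mem_filter.mp hp
    exact mem_filter.mpr ⟨hp'.1, hp'.2.1⟩
  have h1 : ((((A ×ˢ A).filter (fun p : ℕ × ℕ => p.1 ≠ p.2 ∧ ∀ s ∈ U', (s : ℤ) ∣ (p.1 : ℤ) - p.2)).card : ℕ) : ℝ) * (θ : ℝ) ^ U'.card
      = ∑ _p ∈ (A ×ˢ A).filter (fun p : ℕ × ℕ => p.1 ≠ p.2 ∧ ∀ s ∈ U', (s : ℤ) ∣ (p.1 : ℤ) - p.2), (θ : ℝ) ^ U'.card := by
    rw [sum_const, nsmul_eq_mul]
  rw [h1]
  calc ∑ _p ∈ (A ×ˢ A).filter (fun p : ℕ × ℕ => p.1 ≠ p.2 ∧ ∀ s ∈ U', (s : ℤ) ∣ (p.1 : ℤ) - p.2), (θ : ℝ) ^ U'.card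
      ≤ ∑ p ∈ (A ×ˢ A).filter (fun p : ℕ × ℕ => p.1 ≠ p.2 ∧ ∀ s ∈ U', (s : ℤ) ∣ (p.1 : ℤ) - p.2), wt θ U ((p.1 : ℤ) - p.2) := by
        apply sum_le_sum
        intro p hp
        have hp' := (mem_filter.mp hp).2.2
        unfold wt
        rw [← prod_sdiff hsub]
        have h2 : (1 : ℝ) ≤ ∏ s ∈ U \ U', (if (s : ℤ) ∣ ((p.1 : ℤ) - p.2) then (1 + (θ : ℝ)) else 1) := by
          calc (1 : ℝ) = ∏ _s ∈ U \ U', (1 : ℝ) := by simp
            _ ≤ _ := by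
                apply prod_le_prod (fun _ _ => zero_le_one)
                intro s _
                split_ifs
                · have : (0 : ℝ) ≤ θ := Nat.cast_nonneg _
                  linarith
                · exact le_rfl
        have h3 : (θ : ℝ) ^ U'.card ≤ ∏ s ∈ U', (if (s : ℤ) ∣ ((p.1 : ℤ) - p.2) then (1 + (θ : ℝ)) else 1) := by
          rw [← prod_const]
          apply prod_le_prod
          · intro s _
            positivity
          · intro s hs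
            rw [if_pos (hp' s hs)]
            linarith
        calc (θ : ℝ) ^ U'.card = 1 * (θ : ℝ) ^ U'.card := (one_mul _).symm
          _ ≤ _ := mul_le_mul h2 h3 (by positivity) (by linarith)
    _ ≤ ∑ p ∈ offPairs A, wt θ U ((p.1 : ℤ) - p.2) :=
        sum_le_sum_of_subset_of_nonneg hsub2 (fun _ _ _ => wt_nonneg _ _ _)

/-- A nonzero integer has few large prime divisors. -/
lemma card_prime_dvd_le (R : Finset ℕ) (z ν : ℕ) (hz : 1 < z)
    (hR : ∀ s ∈ R, s.Prime ∧ z < s) (n : ℤ) (hn : n ≠ 0) (hnν : n.natAbs < z ^ ν) :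
    (R.filter (fun s : ℕ => (s : ℤ) ∣ n)).card ≤ ν := by
  classical
  set T := R.filter (fun s : ℕ => (s : ℤ) ∣ n) with hT
  have hdvd : (∏ s ∈ T, s) ∣ n.natAbs := by
    apply Finset.prod_primes_dvd
    · intro s hs
      exact (hR s (mem_filter.mp hs).1).1.prime
    · intro s hs
      exact Int.natCast_dvd.mp (mem_filter.mp hs).2
  have hpos : 0 < n.natAbs := Int.natAbs_pos.mpr hn
  have hle := Nat.le_of_dvd hpos hdvd
  have hlow : z ^ T.card ≤ ∏ s ∈ T, s := by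
    calc z ^ T.card = ∏ _s ∈ T, z := by simp
      _ ≤ ∏ s ∈ T, s := prod_le_prod' (fun s hs => (hR s (mem_filter.mp hs).1).2.le)
  have h := lt_of_le_of_lt (hlow.trans hle) hnν
  exact ((Nat.pow_lt_pow_iff_right hz).mp h).le

end

end Vale.Agent.Egypt
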