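import Vale.Agent.Egypt.Primes

open Finset

namespace Vale.Agent.Egypt

noncomputable section

/-- The property of a prime set at level `ℓ`. -/
def Good (ℓ : ℕ) (S : Finset ℕ) : Prop :=
  S.card = 2 ^ ℓ ∧ ∀ p ∈ S, p.Prime ∧ 19 < p ∧ p ≤ 16 ^ (2 * ℓ + 6)

/-- Growth inside a level. -/
lemma inner_growth (e ℓ J : ℕ) (hℓ : 7 ≤ ℓ) (hJ : 1 ≤ J) (hJv : 6 * (2 * ℓ + 6) * J ≤ 2 ^ ℓ) :
    ∀ (r t : ℕ) (S : Finset ℕ), 2 ^ ℓ ≤ S.card → S.card ≤ 2 ^ (ℓ + 1) →
      2 ^ (ℓ + 1) ≤ S.card + r * J →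
      (∀ p ∈ S, p.Prime ∧ 19 < p ∧ p ≤ 16 ^ (2 * ℓ + 6)) →
      Sums (Mult e * ∏ p ∈ S, p) t →
      ∃ S' : Finset ℕ, S'.card = 2 ^ (ℓ + 1) ∧
        (∀ p ∈ S', p.Prime ∧ 19 < p ∧ p ≤ 16 ^ (2 * ℓ + 6)) ∧
        Sums (Mult e * ∏ p ∈ S', p) (t + 6 * r) := by
  intro r
  induction r with
  | zero =>
    intro t S h1 h2 h3 h4 h5
    refine ⟨S, by omega, h4, by simpa using h5⟩
  | succ r ih =>
    intro t S h1 h2 h3 h4 h5
    by_cases hfull : S.card = 2 ^ (ℓ + 1)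
    · exact ⟨S, hfull, h4, h5.mono (by omega)⟩
    have hlt : S.card < 2 ^ (ℓ + 1) := lt_of_le_of_ne h2 hfull
    set n := S.card with hn
    set v := 2 * ℓ + 6 with hv
    set j := min J (2 ^ (ℓ + 1) - n) with hj
    have hj1 : 1 ≤ j := by
      rw [hj]
      apply le_min hJ
      omega
    have hjJ : j ≤ J := min_le_left _ _
    have hj2 : n + j ≤ 2 ^ (ℓ + 1) := by
      have : j ≤ 2 ^ (ℓ + 1) - n := min_le_right _ _
      omega
    have h2ℓ : 0 < 2 ^ ℓ := by positivity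
    have hnpos : 1 ≤ n := by omega
    have hvj : 6 * v * j ≤ n := by
      calc 6 * v * j ≤ 6 * v * J := Nat.mul_le_mul_left _ hjJ
        _ ≤ 2 ^ ℓ := hJv
        _ ≤ n := h1
    have hv20 : 20 ≤ v := by omega
    have hnsq : 16 * n ^ 2 ≤ 2 ^ v := by
      have h6 : (2 : ℕ) ^ v = 64 * (2 ^ ℓ) ^ 2 := by
        rw [hv, ← pow_mul, pow_add]
        ring_nf
      have h7 : n ≤ 2 * 2 ^ ℓ := by
        rw [pow_succ] at h2
        omega
      rw [h6]
      nlinarith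
    have hjle : j ≤ 2 ^ ℓ := by
      calc j ≤ 6 * v * j := Nat.le_mul_of_pos_left _ (by positivity)
        _ ≤ 6 * v * J := Nat.mul_le_mul_left _ hjJ
        _ ≤ 2 ^ ℓ := hJv
    have hY : 31250 * j < 4 ^ v := by
      have h6 : (4 : ℕ) ^ v = 2 ^ (2 * v) := by
        rw [pow_mul]
        norm_num
      have h7 : 2 ^ ℓ * 2 ^ 15 ≤ 2 ^ (2 * v) := by
        rw [← pow_add]
        apply Nat.pow_le_pow_right (by norm_num)
        omega
      rw [h6]
      have h8 : (2 : ℕ) ^ 15 = 32768 := by norm_num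
      rw [h8] at h7
      omega
    have hWpos : 0 < 2 * j * 8 ^ v * (2 * n) := by positivity
    have hcand := cand_large v n j S hv20 hnsq hvj hn.symm
    obtain ⟨S2, hS2sub, hS2c, hS2p, hS2s⟩ :=
      step e v n j (2 * j * 8 ^ v * (2 * n)) t S (fun p hp => ⟨(h4 p hp).1, (h4 p hp).2.1⟩)
        (fun p hp => (h4 p hp).2.2) hn.symm (by omega) hj1
        (by
          rw [Nat.le_div_iff_mul_le (by norm_num)]
          nlinarith)
        hY hWpos hcand le_rfl h5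
    have hcov : 2 ^ (ℓ + 1) ≤ S2.card + r * J := by
      rw [hS2c]
      by_cases hcase : J ≤ 2 ^ (ℓ + 1) - n
      · have : j = J := min_eq_left hcase
        rw [this]
        have h9 : 2 ^ (ℓ + 1) ≤ n + (r + 1) * J := h3
        have h10 : (r + 1) * J = r * J + J := by ring
        omega
      · have : j = 2 ^ (ℓ + 1) - n := min_eq_right (by omega)
        have h9 : n + j = 2 ^ (ℓ + 1) := by omega
        omega
    obtain ⟨S', hS'c, hS'p, hS's⟩ := ih (t + 6) S2 (by omega) (by omega) hcov hS2p hS2s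
    exact ⟨S', hS'c, hS'p, hS's.mono (by omega)⟩

lemma six_v_le (ℓ : ℕ) (hℓ : 7 ≤ ℓ) : 6 * (2 * ℓ + 6) ≤ 2 ^ ℓ := by
  induction ℓ, hℓ using Nat.le_induction with
  | base => norm_num
  | succ ℓ hℓ ih =>
    rw [pow_succ]
    omega

/-- Passing from one level to the next. -/
lemma next_level (e ℓ t : ℕ) (hℓ : 7 ≤ ℓ) (S : Finset ℕ) (hS : Good ℓ S)
    (hP : Sums (Mult e * ∏ p ∈ S, p) t) :
    ∃ S' : Finset ℕ, Good (ℓ + 1) S' ∧
      Sums (Mult e * ∏ p ∈ S', p) (t + (144 * ℓ + 432)) := by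
  set v := 2 * ℓ + 6 with hv
  have h6v : 6 * v ≤ 2 ^ ℓ := six_v_le ℓ hℓ
  set J := 2 ^ ℓ / (6 * v) with hJ
  have hvpos : 0 < 6 * v := by omega
  have hJ1 : 1 ≤ J := Nat.div_pos h6v hvpos
  have hJv : 6 * v * J ≤ 2 ^ ℓ := Nat.mul_div_le _ _
  have hrem : 2 ^ ℓ < 6 * v * J + 6 * v := by
    have := Nat.div_add_mod (2 ^ ℓ) (6 * v)
    have h2 := Nat.mod_lt (2 ^ ℓ) hvpos
    rw [← hJ] at this
    omega
  have hsucc : 2 ^ (ℓ + 1) = 2 ^ ℓ + 2 ^ ℓ := by
    rw [pow_succ]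
    ring
  have hcov : 2 ^ (ℓ + 1) ≤ S.card + (12 * v) * J := by
    rw [hS.1, hsucc]
    have : 6 * v ≤ 6 * v * J := Nat.le_mul_of_pos_right _ hJ1
    have h3 : 12 * v * J = 6 * v * J + 6 * v * J := by ring
    omega
  obtain ⟨S', h1, h2, h3⟩ := inner_growth e ℓ J hℓ hJ1 hJv (12 * v) t S (by rw [hS.1])
    (by rw [hS.1, hsucc]; omega) hcov hS.2 hP
  refine ⟨S', ⟨h1, ?_⟩, h3.mono ?_⟩
  · intro p hp
    have h4 := h2 p hp
    refine ⟨h4.1, h4.2.1, h4.2.2.trans ?_⟩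
    exact Nat.pow_le_pow_right (by norm_num) (by omega)
  · have : 6 * (12 * v) = 144 * ℓ + 432 := by
      rw [hv]
      ring
    omega

/-- Binary expansion. -/
lemma exists_binary (e : ℕ) : ∀ α < 2 ^ e, ∃ A ⊆ range e, ∑ i ∈ A, 2 ^ i = α := by
  induction e with
  | zero =>
    intro α hα
    refine ⟨∅, by simp, ?_⟩
    simp at hα
    simp [hα]
  | succ e ih =>
    intro α hα
    by_cases h : α < 2 ^ e
    · obtain ⟨A, h1, h2⟩ := ih α h
      exact ⟨A, h1.trans (range_subset_range.mpr (by omega)), h2⟩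
    · rw [pow_succ] at hα
      obtain ⟨A, h1, h2⟩ := ih (α - 2 ^ e) (by omega)
      have he : e ∉ A := fun h3 => by
        have := mem_range.mp (h1 h3)
        omega
      refine ⟨insert e A, ?_, ?_⟩
      · intro i hi
        rcases mem_insert.mp hi with rfl | hi
        · simp
        · have := mem_range.mp (h1 hi)
          exact mem_range.mpr (by omega)
      · rw [sum_insert he, h2]
        omega

/-- A base for the induction. -/
lemma base_sums (e c : ℕ) (hc : c ≤ 2 ^ e) (hc1 : 1 < c) (hodd : Nat.Coprime 2 c) :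
    Sums (2 ^ e * c) (2 * e) := by
  classical
  intro m hm
  have hcpos : 0 < c := by omega
  have h1 : m / c < 2 ^ e := Nat.div_lt_of_lt_mul (by rwa [mul_comm] at hm)
  have h2 : m % c < 2 ^ e := lt_of_lt_of_le (Nat.mod_lt _ hcpos) hc
  obtain ⟨A, hA1, hA2⟩ := exists_binary e _ h1
  obtain ⟨B, hB1, hB2⟩ := exists_binary e _ h2
  have hinj1 : Function.Injective (fun i : ℕ => c * 2 ^ i) := by
    intro i i' h
    have h3 : 2 ^ i = 2 ^ i' := Nat.eq_of_mul_eq_mul_left hcpos h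
    exact Nat.pow_right_injective (le_refl 2) h3
  have hinj2 : Function.Injective (fun i : ℕ => 2 ^ i) := Nat.pow_right_injective (le_refl 2)
  have hdisj : Disjoint (A.image (fun i : ℕ => c * 2 ^ i)) (B.image (fun i : ℕ => 2 ^ i)) := by
    rw [disjoint_left]
    intro x hx hx'
    obtain ⟨i, _, rfl⟩ := mem_image.mp hx
    obtain ⟨k, _, hk⟩ := mem_image.mp hx'
    have h3 : c ∣ 2 ^ k := by
      rw [hk]
      exact Dvd.intro _ rfl
    have h4 : Nat.Coprime c (2 ^ k) := (Nat.Coprime.pow_right k hodd.symm)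
    have h5 := Nat.Coprime.eq_one_of_dvd h4 h3
    omega
  refine ⟨A.image (fun i : ℕ => c * 2 ^ i) ∪ B.image (fun i : ℕ => 2 ^ i), ?_, ?_, ?_⟩
  · intro d hd
    rcases mem_union.mp hd with hd | hd
    · obtain ⟨i, hi, rfl⟩ := mem_image.mp hd
      have := mem_range.mp (hA1 hi)
      rw [mul_comm]
      exact Nat.mul_dvd_mul_right (pow_dvd_pow 2 (by omega)) c
    · obtain ⟨i, hi, rfl⟩ := mem_image.mp hd
      have := mem_range.mp (hB1 hi)
      exact Dvd.dvd.mul_right (pow_dvd_pow 2 (by omega)) c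
  · have h3 : A.card ≤ e := by simpa using card_le_card hA1
    have h4 : B.card ≤ e := by simpa using card_le_card hB1
    calc (A.image (fun i : ℕ => c * 2 ^ i) ∪ B.image (fun i : ℕ => 2 ^ i)).card
        ≤ (A.image (fun i : ℕ => c * 2 ^ i)).card + (B.image (fun i : ℕ => 2 ^ i)).card :=
          card_union_le _ _
      _ ≤ A.card + B.card := Nat.add_le_add card_image_le card_image_le
      _ ≤ 2 * e := by omega
  · rw [sum_union hdisj, sum_image (fun a _ b _ hab => hinj1 hab),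
      sum_image (fun a _ b _ hab => hinj2 hab), ← mul_sum, hA2, hB2]
    exact Nat.div_add_mod m c

lemma base_numeric (c : ℕ) (h1 : 16 ^ 20 ≤ 4 * 20 * (c + 4 ^ 20 + 1 + 0) + 4 * 20 + 1) :
    128 ≤ c := by
  by_contra hcon
  push Not at hcon
  have e1 : (16 : ℕ) ^ 20 = 1208925819614629174706176 := by norm_num
  have e2 : (4 : ℕ) ^ 20 = 1099511627776 := by norm_num
  rw [e1, e2] at h1
  have h3 : c ≤ 127 := by omega
  have h5 : 4 * 20 * (c + 1099511627776 + 1 + 0) + 4 * 20 + 1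
      ≤ 4 * 20 * (127 + 1099511627776 + 1 + 0) + 4 * 20 + 1 := by gcongr
  have h4 : 1208925819614629174706176 ≤ 4 * 20 * (127 + 1099511627776 + 1 + 0) + 4 * 20 + 1 :=
    h1.trans h5
  norm_num at h4

lemma exists_primes_of_cand (v k : ℕ) (hv : 3 ≤ v) (h2 : k ≤ (cand v ∅).card) :
    ∃ S : Finset ℕ, S.card = k ∧ ∀ p ∈ S, p.Prime ∧ 19 < p ∧ p ≤ 16 ^ v := by
  classical
  obtain ⟨S, hS, hSc⟩ := exists_subset_card_eq h2
  refine ⟨S, hSc, ?_⟩
  intro p hp
  have h3 := mem_sdiff.mp (hS hp)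
  have h4 := mem_filter.mp h3.1
  have h5 := mem_Ioc.mp h4.1
  refine ⟨h4.2, ?_, h5.2⟩
  have h6 : 19 < 4 ^ 3 := by norm_num
  have h7 : 4 ^ 3 ≤ 4 ^ v := Nat.pow_le_pow_right (by norm_num) hv
  omega

/-- The starting primes. -/
lemma exists_base_set : ∃ S : Finset ℕ, S.card = 128 ∧ ∀ p ∈ S, p.Prime ∧ 19 < p ∧ p ≤ 16 ^ 20 := by
  have h1 := cand_bound 20 (by norm_num) ∅
  rw [card_empty] at h1
  exact exists_primes_of_cand 20 128 (by norm_num) (base_numeric _ h1)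

/-- The starting system. -/
lemma exists_base : ∃ (e t : ℕ) (S : Finset ℕ), Good 7 S ∧ Sums (Mult e * ∏ p ∈ S, p) t := by
  classical
  obtain ⟨S, hSc, hSprop'⟩ := exists_base_set
  have hSprop : ∀ p ∈ S, p.Prime ∧ 19 < p ∧ p ≤ 16 ^ (2 * 7 + 6) := by
    intro p hp
    have h := hSprop' p hp
    refine ⟨h.1, h.2.1, ?_⟩
    rw [show 2 * 7 + 6 = 20 by norm_num]
    exact h.2.2
  have hSpos : 0 < ∏ p ∈ S, p := prod_pos (fun p hp => (hSprop p hp).1.pos)
  set c := 1616615 * ∏ p ∈ S, p with hc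
  have hc1 : 1 < c := by
    rw [hc]
    have : 1 ≤ ∏ p ∈ S, p := hSpos
    omega
  have hodd : Nat.Coprime 2 c := by
    rw [hc, Nat.coprime_mul_iff_right]
    refine ⟨by norm_num, Nat.Coprime.prod_right ?_⟩
    intro p hp
    have h3 := hSprop p hp
    exact (Nat.coprime_primes Nat.prime_two h3.1).mpr (by omega)
  refine ⟨c, 2 * c, S, ⟨by rw [hSc]; norm_num, hSprop⟩, ?_⟩
  have h3 := base_sums c c (Nat.lt_two_pow_self).le hc1 hodd
  have h4 : Mult c * ∏ p ∈ S, p = 2 ^ c * c := by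
    unfold Mult
    rw [hc]
    ring
  rw [h4]
  exact h3

/-- The full system at every level. -/
theorem all_levels : ∃ (e t₀ : ℕ), ∀ ℓ, 7 ≤ ℓ → ∃ S : Finset ℕ, Good ℓ S ∧
    Sums (Mult e * ∏ p ∈ S, p) (t₀ + ℓ * (144 * ℓ + 432)) := by
  obtain ⟨e, t, S, hS, hP⟩ := exists_base
  refine ⟨e, t, ?_⟩
  intro ℓ hℓ
  induction ℓ, hℓ using Nat.le_induction with
  | base =>
    exact ⟨S, hS, hP.mono (by omega)⟩
  | succ ℓ hℓ ih =>
    obtain ⟨S1, h1, h2⟩ := ih
    obtain ⟨S2, h3, h4⟩ := next_level e ℓ _ hℓ S1 h1 h2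
    refine ⟨S2, h3, h4.mono ?_⟩
    nlinarith

/-- Properties of the moduli at each level. -/
lemma good_size (e ℓ : ℕ) (S : Finset ℕ) (hS : Good ℓ S) :
    2 ^ (2 ^ ℓ) ≤ Mult e * ∏ p ∈ S, p := by
  have h1 : 2 ^ (2 ^ ℓ) ≤ ∏ p ∈ S, p := by
    calc 2 ^ (2 ^ ℓ) = ∏ _p ∈ S, 2 := by simp [hS.1]
      _ ≤ ∏ p ∈ S, p := prod_le_prod' (fun p hp => (hS.2 p hp).1.two_le)
  calc 2 ^ (2 ^ ℓ) ≤ ∏ p ∈ S, p := h1
    _ ≤ Mult e * ∏ p ∈ S, p := Nat.le_mul_of_pos_left _ (Mult_pos e)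

lemma good_coprime (e ℓ : ℕ) (S : Finset ℕ) (hS : Good ℓ S) :
    Nat.Coprime 3 (Mult e * ∏ p ∈ S, p) := by
  rw [Nat.coprime_mul_iff_right]
  constructor
  · unfold Mult
    rw [Nat.coprime_mul_iff_right]
    refine ⟨Nat.Coprime.pow_right _ (by norm_num), by norm_num⟩
  · apply Nat.Coprime.prod_right
    intro p hp
    have h3 := hS.2 p hp
    exact (Nat.coprime_primes Nat.prime_three h3.1).mpr (by omega)

/-- From the system to the fraction. -/
theorem fraction_of_sums (H t a b : ℕ) (hb : 0 < b) (hab : a < b) (h3 : Nat.Coprime 3 H)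
    (hH : 3 * b ≤ H) (hP : Sums H t) :
    ∃ F : Finset ℕ, (∀ n ∈ F, 2 ≤ n) ∧ ∑ n ∈ F, (1 : ℚ) / n = a / b ∧ F.card ≤ 2 * t := by
  classical
  have hHpos : 0 < H := by omega
  set u := a * H / b with hu
  set ρ := a * H % b with hρ
  have hdiv : b * u + ρ = a * H := Nat.div_add_mod _ _
  have hulH : u < H := by
    apply Nat.div_lt_of_lt_mul
    rw [mul_comm b H, mul_comm a H]
    exact Nat.mul_lt_mul_of_pos_left hab hHpos
  have hρb : ρ < b := Nat.mod_lt _ hb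
  have hRH : 3 * ρ < H := by omega
  obtain ⟨F1, h1a, h1b, h1c⟩ := hP u hulH
  obtain ⟨F2, h2a, h2b, h2c⟩ := hP (3 * ρ) hRH
  have hdivne : ∀ d : ℕ, d ∣ H → d ≠ 0 := fun d hd h0 => by
    rw [h0] at hd
    have := Nat.eq_zero_of_zero_dvd hd
    omega
  have hdiveq : ∀ d : ℕ, d ∣ H → ((H / d : ℕ) : ℚ) = (H : ℚ) / d := fun d hd =>
    Nat.cast_div hd (by exact_mod_cast hdivne d hd)
  have hmul : ∀ d : ℕ, d ∣ H → (H / d) * d = H := fun d hd => Nat.div_mul_cancel hd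
  have hinjdiv : ∀ d : ℕ, d ∣ H → ∀ d' : ℕ, d' ∣ H → H / d = H / d' → d = d' := by
    intro d hd d' hd' h
    have h4 := hmul d hd
    have h5 := hmul d' hd'
    rw [h] at h4
    have h6 : (H / d') * d = (H / d') * d' := by rw [h4, h5]
    have h7 : 0 < H / d' := Nat.div_pos (Nat.le_of_dvd hHpos hd') (Nat.pos_of_ne_zero (hdivne d' hd'))
    exact Nat.eq_of_mul_eq_mul_left h7 h6
  have h3b : 0 < 3 * b := by omega
  have hG1 : ∀ x ∈ F1, ∀ y ∈ F1, H / x = H / y → x = y := fun x hx y hy h =>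
    hinjdiv x (h1a x hx) y (h1a y hy) h
  have hG2 : ∀ x ∈ F2, ∀ y ∈ F2, 3 * b * (H / x) = 3 * b * (H / y) → x = y := fun x hx y hy h =>
    hinjdiv x (h2a x hx) y (h2a y hy) (Nat.eq_of_mul_eq_mul_left h3b h)
  have hdisj : Disjoint (F1.image (fun d : ℕ => H / d)) (F2.image (fun d : ℕ => 3 * b * (H / d))) := by
    rw [disjoint_left]
    intro n hn hn'
    obtain ⟨d, hd, rfl⟩ := mem_image.mp hn
    obtain ⟨d', hd', hdd⟩ := mem_image.mp hn'
    have h4 : H / d ∣ H := Nat.div_dvd_of_dvd (h1a d hd)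
    have h5 : 3 ∣ H / d := by
      rw [← hdd, mul_assoc]
      exact Dvd.intro _ rfl
    have h6 : 3 ∣ H := h5.trans h4
    have h7 := Nat.Coprime.eq_one_of_dvd h3 h6
    omega
  refine ⟨F1.image (fun d : ℕ => H / d) ∪ F2.image (fun d : ℕ => 3 * b * (H / d)), ?_, ?_, ?_⟩
  · intro n hn
    rcases mem_union.mp hn with hn | hn
    · obtain ⟨d, hd, rfl⟩ := mem_image.mp hn
      have hdu : d ≤ u := by
        rw [← h1c]
        exact single_le_sum (f := fun x : ℕ => x) (fun _ _ => Nat.zero_le _) hd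
      have hm := hmul d (h1a d hd)
      by_contra hcon
      push Not at hcon
      have hdpos := Nat.pos_of_ne_zero (hdivne d (h1a d hd))
      have h5 : H / d ≤ 1 := by omega
      have h6 : (H / d) * d ≤ 1 * d := Nat.mul_le_mul_right _ h5
      omega
    · obtain ⟨d, hd, rfl⟩ := mem_image.mp hn
      have h7 : 0 < H / d := Nat.div_pos (Nat.le_of_dvd hHpos (h2a d hd))
        (Nat.pos_of_ne_zero (hdivne d (h2a d hd)))
      nlinarith
  · rw [sum_union hdisj, sum_image hG1, sum_image hG2]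
    have hHq : (H : ℚ) ≠ 0 := by exact_mod_cast hHpos.ne'
    have hbq : (b : ℚ) ≠ 0 := by exact_mod_cast hb.ne'
    have hs1 : ∑ d ∈ F1, (1 : ℚ) / ((H / d : ℕ) : ℚ) = (u : ℚ) / H := by
      rw [← h1c]
      push_cast
      rw [sum_div]
      refine sum_congr rfl (fun d hd => ?_)
      have hd0 : (d : ℚ) ≠ 0 := by exact_mod_cast hdivne d (h1a d hd)
      have := hdiveq d (h1a d hd)
      rw [this]
      field_simp
    have hs2 : ∑ d ∈ F2, (1 : ℚ) / ((3 * b * (H / d) : ℕ) : ℚ) = (3 * ρ : ℚ) / (3 * b * H) := by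
      have h5 : (3 * (ρ : ℚ)) = ((3 * ρ : ℕ) : ℚ) := by push_cast; rfl
      rw [h5, ← h2c]
      push_cast
      rw [sum_div]
      refine sum_congr rfl (fun d hd => ?_)
      have hd0 : (d : ℚ) ≠ 0 := by exact_mod_cast hdivne d (h2a d hd)
      have h6 : ((H / d : ℕ) : ℚ) = (H : ℚ) / d := hdiveq d (h2a d hd)
      rw [h6]
      field_simp
    rw [hs1, hs2]
    have hcast : (b : ℚ) * u + ρ = a * H := by exact_mod_cast hdiv
    field_simp
    linear_combination hcast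
  · calc (F1.image (fun d : ℕ => H / d) ∪ F2.image (fun d : ℕ => 3 * b * (H / d))).card
        ≤ (F1.image (fun d : ℕ => H / d)).card + (F2.image (fun d : ℕ => 3 * b * (H / d))).card :=
          card_union_le _ _
      _ ≤ F1.card + F2.card := Nat.add_le_add card_image_le card_image_le
      _ ≤ 2 * t := by omega

end

end Vale.Agent.Egypt
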