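import Vale.Agent.Egypt.Step
import Mathlib.NumberTheory.Chebyshev

open Finset

namespace Vale.Agent.Egypt

noncomputable section

/-- Chebyshev in the form needed. -/
lemma two_pow_le_primeCounting (m : ℕ) :
    2 ^ m ≤ m * Nat.primeCounting (2 ^ m) + m + 1 := by
  have h1 := Chebyshev.psi_ge (2 ^ m)
  have h2 := Chebyshev.psi_le_primeCounting_mul_log (2 ^ m)
  have hlog2 : 0 < Real.log 2 := Real.log_pos (by norm_num)
  push_cast at h1 h2
  have h3 : Real.log ((2 : ℝ) ^ m) = m * Real.log 2 := Real.log_pow _ _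
  have h4 : Real.log ((2 : ℝ) ^ m + 1) ≤ (m + 1) * Real.log 2 := by
    have h5 : (2 : ℝ) ^ m + 1 ≤ 2 ^ (m + 1) := by
      have : (1 : ℝ) ≤ 2 ^ m := one_le_pow₀ (by norm_num)
      rw [pow_succ]
      linarith
    calc Real.log ((2 : ℝ) ^ m + 1) ≤ Real.log (2 ^ (m + 1)) :=
          Real.log_le_log (by positivity) h5
      _ = (m + 1) * Real.log 2 := by
          rw [Real.log_pow]
          push_cast
          ring
  rw [h3] at h2
  have h6 : ((2 : ℝ) ^ m - (m + 1)) * Real.log 2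
      ≤ ((m : ℝ) * (Nat.primeCounting (2 ^ m) : ℝ)) * Real.log 2 := by
    nlinarith
  have h7 := le_of_mul_le_mul_right h6 hlog2
  have h8 : ((2 ^ m : ℕ) : ℝ) ≤ ((m * Nat.primeCounting (2 ^ m) + m + 1 : ℕ) : ℝ) := by
    push_cast
    linarith
  exact_mod_cast h8

lemma primeCounting_le_cand (v : ℕ) (S : Finset ℕ) :
    Nat.primeCounting (16 ^ v) ≤ (cand v S).card + 4 ^ v + 1 + S.card := by
  classical
  have h1 : Nat.primeCounting (16 ^ v) = ((range (16 ^ v + 1)).filter Nat.Prime).card := by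
    unfold Nat.primeCounting Nat.primeCounting'
    rw [Nat.count_eq_card_filter_range]
  have h2 : (range (16 ^ v + 1)).filter Nat.Prime ⊆
      ((Ioc (4 ^ v) (16 ^ v)).filter Nat.Prime) ∪ range (4 ^ v + 1) := by
    intro p hp
    have h3 := mem_filter.mp hp
    have h4 := mem_range.mp h3.1
    rw [mem_union]
    by_cases h5 : p ≤ 4 ^ v
    · right
      exact mem_range.mpr (by omega)
    · left
      exact mem_filter.mpr ⟨mem_Ioc.mpr ⟨by omega, by omega⟩, h3.2⟩
  have h3 := card_le_card h2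
  have h4 := card_union_le ((Ioc (4 ^ v) (16 ^ v)).filter Nat.Prime) (range (4 ^ v + 1))
  have h5 : ((Ioc (4 ^ v) (16 ^ v)).filter Nat.Prime).card ≤ (cand v S).card + S.card := by
    unfold cand
    have := le_card_sdiff S ((Ioc (4 ^ v) (16 ^ v)).filter Nat.Prime)
    omega
  rw [card_range] at h4
  omega

/-- Counting candidate primes. -/
lemma cand_bound (v : ℕ) (hv : 1 ≤ v) (S : Finset ℕ) :
    16 ^ v ≤ 4 * v * ((cand v S).card + 4 ^ v + 1 + S.card) + 4 * v + 1 := by
  have h1 := two_pow_le_primeCounting (4 * v)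
  have h2 : (2 : ℕ) ^ (4 * v) = 16 ^ v := by
    rw [pow_mul]
    norm_num
  rw [h2] at h1
  have h3 := primeCounting_le_cand v S
  calc 16 ^ v ≤ 4 * v * Nat.primeCounting (16 ^ v) + 4 * v + 1 := h1
    _ ≤ 4 * v * ((cand v S).card + 4 ^ v + 1 + S.card) + 4 * v + 1 := by
        gcongr

/-- The candidate count needed for a growth step. -/
lemma cand_large (v n j : ℕ) (S : Finset ℕ) (hv : 20 ≤ v) (hn : 16 * n ^ 2 ≤ 2 ^ v)
    (hj : 6 * v * j ≤ n) (hS : S.card = n) :
    2 * j * 8 ^ v * (2 * n) + j ≤ (cand v S).card := by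
  have h1 := cand_bound v (by omega) S
  rw [hS] at h1
  set c := (cand v S).card with hc
  set A := 2 ^ v with hA
  have hA4 : (16 : ℕ) ^ v = A ^ 4 := by
    rw [hA, ← pow_mul, mul_comm, pow_mul]
    norm_num
  have hA3 : (8 : ℕ) ^ v = A ^ 3 := by
    rw [hA, ← pow_mul, mul_comm, pow_mul]
    norm_num
  have hA2 : (4 : ℕ) ^ v = A ^ 2 := by
    rw [hA, ← pow_mul, mul_comm, pow_mul]
    norm_num
  rw [hA4, hA2] at h1
  rw [hA3]
  by_contra hcon
  push Not at hcon
  have hvA : v < A := Nat.lt_two_pow_self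
  have hA20 : 2 ^ 20 ≤ A := Nat.pow_le_pow_right (by norm_num) hv
  have hnA : n ≤ A := by nlinarith
  have hc2 : c + 1 ≤ 2 * j * A ^ 3 * (2 * n) + j := hcon
  -- upper bound on the right side
  have hvpos : 0 < v := by omega
  have h2 : 4 * v * (c + A ^ 2 + 1 + n) + 4 * v + 1
      ≤ 4 * v * (2 * j * A ^ 3 * (2 * n) + j + A ^ 2 + 1 + n) + 4 * v + 1 := by
    gcongr
  have h3 : 16 * v * j * n * A ^ 3 ≤ 3 * n * n * A ^ 3 := by
    have : 16 * v * j ≤ 3 * n := by nlinarith
    calc 16 * v * j * n * A ^ 3 = (16 * v * j) * (n * A ^ 3) := by ring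
      _ ≤ (3 * n) * (n * A ^ 3) := Nat.mul_le_mul_right _ this
      _ = 3 * n * n * A ^ 3 := by ring
  have h4 : 16 * (3 * n * n * A ^ 3) ≤ 3 * A ^ 4 := by
    calc 16 * (3 * n * n * A ^ 3) = 3 * (16 * n ^ 2) * A ^ 3 := by ring
      _ ≤ 3 * A * A ^ 3 := by gcongr
      _ = 3 * A ^ 4 := by ring
  have h5 : 4 * v * j ≤ n := by nlinarith
  have h6 : 4 * v * A ^ 2 * 64 ≤ A ^ 4 := by
    calc 4 * v * A ^ 2 * 64 = 256 * v * A ^ 2 := by ring
      _ ≤ (A * A) * A ^ 2 := by
          gcongr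
          nlinarith
      _ = A ^ 4 := by ring
  have h7 : 4 * v * n * 64 ≤ A ^ 4 := by
    have h8 : 4 * v * n * 64 ≤ A ^ 2 * A ^ 2 := by
      calc 4 * v * n * 64 = 256 * v * n := by ring
        _ ≤ A * A * A := by
            have : 256 * v ≤ A * A := by nlinarith
            exact Nat.mul_le_mul this hnA
        _ ≤ A * A * (A * A) := by
            gcongr
            nlinarith
        _ = A ^ 2 * A ^ 2 := by ring
    calc _ ≤ A ^ 2 * A ^ 2 := h8
      _ = A ^ 4 := by ring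
  have h9 : (4 * v + 1) * 64 ≤ A ^ 4 := by
    have : (4 * v + 1) * 64 ≤ A * A := by nlinarith
    calc _ ≤ A * A := this
      _ ≤ A * A * (A * A) := by
          apply Nat.le_mul_of_pos_right
          positivity
      _ = A ^ 4 := by ring
  have h10 : 4 * v * 64 ≤ A ^ 4 := by nlinarith
  have h11 : 4 * v * (2 * j * A ^ 3 * (2 * n) + j + A ^ 2 + 1 + n) + 4 * v + 1
      = 16 * v * j * n * A ^ 3 + 4 * v * j + 4 * v * A ^ 2 + (4 * v + 1) + 4 * v * n + 4 * v := by
    ring
  have h12 : 0 < A ^ 4 := by positivity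
  have h13 : n * 64 ≤ A ^ 4 := by
    calc n * 64 ≤ A * A := Nat.mul_le_mul hnA (by omega)
      _ ≤ A * A * (A * A) := by
          apply Nat.le_mul_of_pos_right
          positivity
      _ = A ^ 4 := by ring
  omega

end

end Vale.Agent.Egypt
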