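import Vale.Agent.Egypt.Greedy

open Finset

namespace Vale.Agent.Egypt

noncomputable section

/-- Every positive integer below `H` is a sum of at most `t` distinct divisors of `H`. -/
def Sums (H t : ℕ) : Prop :=
  ∀ m < H, ∃ F : Finset ℕ, (∀ d ∈ F, d ∣ H) ∧ F.card ≤ t ∧ ∑ d ∈ F, d = m

lemma Sums.mono {H t t' : ℕ} (h : Sums H t) (ht : t ≤ t') : Sums H t' := by
  intro m hm
  obtain ⟨F, h1, h2, h3⟩ := h m hm
  exact ⟨F, h1, h2.trans ht, h3⟩

/-- Extension of a system by a new modulus `g`. -/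
theorem Sums.extend {H g t : ℕ} (hH : 0 < H) (hg : 1 < g) (hP : Sums H t)
    (hdig : ∀ m : ℕ, H ≤ m → ∃ D : Finset ℕ, (∀ d ∈ D, d ∣ H ∧ ¬ g ∣ d) ∧ D.card ≤ 6 ∧
      ∑ d ∈ D, d ≤ H ∧ g ∣ m - ∑ d ∈ D, d) :
    Sums (H * g) (t + 6) := by
  classical
  intro m hm
  by_cases hmH : m < H
  · obtain ⟨F, h1, h2, h3⟩ := hP m hmH
    exact ⟨F, fun d hd => Dvd.dvd.mul_right (h1 d hd) g, by omega, h3⟩
  · push Not at hmH
    obtain ⟨D, hD1, hD2, hD3, hD4⟩ := hdig m hmH
    obtain ⟨m', hm'⟩ := hD4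
    have hle : ∑ d ∈ D, d ≤ m := hD3.trans hmH
    have hm'lt : m' < H := by
      have h1 : g * m' ≤ m := by omega
      have h2 : g * m' < H * g := lt_of_le_of_lt h1 hm
      rw [mul_comm H g] at h2
      exact Nat.lt_of_mul_lt_mul_left h2
    obtain ⟨F, h1, h2, h3⟩ := hP m' hm'lt
    have hgpos : 0 < g := by omega
    have hinj : Function.Injective (fun d : ℕ => g * d) := fun a b hab =>
      Nat.eq_of_mul_eq_mul_left hgpos hab
    refine ⟨F.image (fun d : ℕ => g * d) ∪ D, ?_, ?_, ?_⟩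
    · intro d hd
      rcases mem_union.mp hd with hd | hd
      · obtain ⟨f, hf, rfl⟩ := mem_image.mp hd
        rw [mul_comm H g]
        exact Nat.mul_dvd_mul_left g (h1 f hf)
      · exact Dvd.dvd.mul_right (hD1 d hd).1 g
    · calc (F.image (fun d : ℕ => g * d) ∪ D).card
          ≤ (F.image (fun d : ℕ => g * d)).card + D.card := card_union_le _ _
        _ ≤ F.card + D.card := Nat.add_le_add_right card_image_le _
        _ ≤ t + 6 := by omega
    · have hdisj : Disjoint (F.image (fun d : ℕ => g * d)) D := by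
        rw [disjoint_left]
        intro d hd hdD
        obtain ⟨f, _, rfl⟩ := mem_image.mp hd
        exact (hD1 _ hdD).2 (Dvd.intro _ rfl)
      rw [sum_union hdisj, sum_image (fun a _ b _ hab => hinj hab), ← mul_sum, h3]
      omega

/-- The six fixed multipliers. -/
def mult : Fin 6 → ℕ := ![5, 7, 11, 13, 17, 19]

lemma mult_prime (k : Fin 6) : (mult k).Prime := by
  fin_cases k <;> norm_num [mult]

lemma mult_le (k : Fin 6) : mult k ≤ 19 := by
  fin_cases k <;> simp [mult]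

lemma mult_dvd (k : Fin 6) : mult k ∣ 1616615 := by
  fin_cases k <;> norm_num [mult]

lemma mult_inj : Function.Injective mult := by
  intro a b hab
  fin_cases a <;> fin_cases b <;> simp [mult] at hab ⊢

lemma sum_mult : ∑ k : Fin 6, mult k = 72 := by
  simp [mult, Fin.sum_univ_succ]

/-- A prime `r` not among the primes of `T` does not divide a divisor of the product of `T`. -/
lemma not_dvd_of_dvd_prod (T : Finset ℕ) (hT : ∀ p ∈ T, p.Prime) (r x : ℕ) (hr : r.Prime)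
    (hrT : r ∉ T) (hx : x ∣ ∏ p ∈ T, p) : ¬ r ∣ x := by
  intro h
  have h1 : r ∣ ∏ p ∈ T, p := h.trans hx
  obtain ⟨p, hp, hrp⟩ := (Prime.dvd_finsetProd_iff hr.prime _).mp h1
  have := (Nat.prime_dvd_prime_iff_eq hr (hT p hp)).mp hrp
  exact hrT (this ▸ hp)

/-- The set of all subset products of `T`. -/
def subProds (T : Finset ℕ) : Finset ℕ := T.powerset.image (fun V => ∏ p ∈ V, p)

lemma card_subProds (T : Finset ℕ) (hT : ∀ p ∈ T, p.Prime) : (subProds T).card = 2 ^ T.card := by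
  classical
  unfold subProds
  rw [card_image_of_injOn, card_powerset]
  intro V hV V' hV' h
  have hV1 : ∀ p ∈ V, p.Prime := fun p hp => hT p (mem_powerset.mp hV hp)
  have hV2 : ∀ p ∈ V', p.Prime := fun p hp => hT p (mem_powerset.mp hV' hp)
  simp only at h
  rw [← Nat.primeFactors_prod hV1, ← Nat.primeFactors_prod hV2, h]

lemma mem_subProds_dvd (T : Finset ℕ) (x : ℕ) (hx : x ∈ subProds T) : x ∣ ∏ p ∈ T, p := by
  classical
  obtain ⟨V, hV, rfl⟩ := mem_image.mp hx
  exact prod_dvd_prod_of_subset _ _ _ (mem_powerset.mp hV)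

/-- The system constant. -/
def Mult (e : ℕ) : ℕ := 2 ^ e * 1616615

lemma Mult_pos (e : ℕ) : 0 < Mult e := by
  unfold Mult
  positivity

lemma le_Mult (e : ℕ) : 1616615 ≤ Mult e := by
  unfold Mult
  have : 1 ≤ 2 ^ e := Nat.one_le_two_pow
  omega

/-- Candidate primes at scale `v`. -/
def cand (v : ℕ) (S : Finset ℕ) : Finset ℕ :=
  ((Ioc (4 ^ v) (16 ^ v)).filter Nat.Prime) \ S

/-- One growth step. -/
theorem step (e v n j W t : ℕ) (S : Finset ℕ) (hSp : ∀ p ∈ S, p.Prime ∧ 19 < p)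
    (hSv : ∀ p ∈ S, p ≤ 16 ^ v) (hn : S.card = n) (hv : 3 ≤ v) (hj : 1 ≤ j)
    (h1 : 3 * v * j ≤ n / 2) (hY : 31250 * j < 4 ^ v) (hW0 : 0 < W)
    (hW1 : W + j ≤ (cand v S).card) (hW2 : 2 * j * 8 ^ v * (2 * n) ≤ W)
    (hP : Sums (Mult e * ∏ p ∈ S, p) t) :
    ∃ S' : Finset ℕ, S ⊆ S' ∧ S'.card = n + j ∧ (∀ p ∈ S', p.Prime ∧ 19 < p ∧ p ≤ 16 ^ v) ∧
      Sums (Mult e * ∏ p ∈ S', p) (t + 6) := by
  classical
  -- split `S`
  have hw : n / 2 ≤ S.card := by rw [hn]; exact Nat.div_le_self _ _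
  obtain ⟨SA, hSA, hSAc⟩ := exists_subset_card_eq hw
  have hw2 : n / 2 ≤ (S \ SA).card := by
    rw [card_sdiff_of_subset hSA, hSAc, hn]
    omega
  obtain ⟨SB, hSB, hSBc⟩ := exists_subset_card_eq hw2
  have hSB' : SB ⊆ S := hSB.trans sdiff_subset
  have hdisjAB : Disjoint SA SB := by
    rw [disjoint_left]
    intro p hp hp'
    exact (mem_sdiff.mp (hSB hp')).2 hp
  have hSAp : ∀ p ∈ SA, p.Prime := fun p hp => (hSp p (hSA hp)).1
  have hSBp : ∀ p ∈ SB, p.Prime := fun p hp => (hSp p (hSB' hp)).1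
  set A := subProds SA with hA
  set B := subProds SB with hB
  have hAc : A.card = 2 ^ (n / 2) := by rw [hA, card_subProds SA hSAp, hSAc]
  have hBc : B.card = 2 ^ (n / 2) := by rw [hB, card_subProds SB hSBp, hSBc]
  have hAne : A.Nonempty := card_pos.mp (by rw [hAc]; positivity)
  have hBne : B.Nonempty := card_pos.mp (by rw [hBc]; positivity)
  -- sizes
  have hSprod : ∏ p ∈ S, p ≤ 2 ^ (4 * v * n) := by
    calc ∏ p ∈ S, p ≤ ∏ _p ∈ S, 16 ^ v := prod_le_prod' hSv
      _ = (16 ^ v) ^ S.card := by simp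
      _ = 2 ^ (4 * v * n) := by
          rw [hn, show (16 : ℕ) = 2 ^ 4 by norm_num, ← pow_mul, ← pow_mul]
          congr 1
          ring
  have hSpos : 0 < ∏ p ∈ S, p := prod_pos (fun p hp => (hSp p hp).1.pos)
  have hsmall : ∀ (T : Finset ℕ), T ⊆ S → ∀ x ∈ subProds T, 0 < x ∧ x ≤ 2 ^ (4 * v * n) := by
    intro T hT x hx
    have h2 : x ∣ ∏ p ∈ S, p := (mem_subProds_dvd T x hx).trans (prod_dvd_prod_of_subset _ _ _ hT)
    exact ⟨Nat.pos_of_dvd_of_pos h2 hSpos, (Nat.le_of_dvd hSpos h2).trans hSprod⟩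
  -- the candidate count condition
  have h4v : 1 < 4 ^ v := Nat.one_lt_pow (by omega) (by norm_num)
  have hνgen : ∀ (T : Finset ℕ), T ⊆ S → ∀ x ∈ subProds T, ∀ x' ∈ subProds T, x ≠ x' →
      ((cand v S).filter (fun s : ℕ => (s : ℤ) ∣ (x : ℤ) - x')).card ≤ 2 * n := by
    intro T hT x hx x' hx' hne
    apply card_prime_dvd_le (cand v S) (4 ^ v) (2 * n) h4v
    · intro s hs
      have h2 := mem_filter.mp (mem_sdiff.mp hs).1
      exact ⟨h2.2, (mem_Ioc.mp h2.1).1⟩
    · exact sub_ne_zero.mpr (by exact_mod_cast hne)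
    · have h2 := hsmall T hT x hx
      have h3 := hsmall T hT x' hx'
      have h5 : (4 ^ v) ^ (2 * n) = 2 ^ (4 * v * n) := by
        rw [show (4 : ℕ) = 2 ^ 2 by norm_num, ← pow_mul, ← pow_mul]
        congr 1
        ring
      rw [h5]
      have h6 : ((x : ℤ) - x').natAbs < 2 ^ (4 * v * n) := by
        have : ((x : ℤ) - x').natAbs < max x x' := by
          omega
        exact lt_of_lt_of_le this (max_le h2.2 h3.2)
      exact h6
  -- greedy choice of the new primes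
  obtain ⟨U, hUsub, hUc, hPhiA, hPhiB⟩ := exists_flat_set (8 ^ v) (2 * n) j W (cand v S) A B hW0 hW1
    hW2 (hνgen SA hSA) (hνgen SB hSB') hAne hBne
  have hUprop : ∀ s ∈ U, s.Prime ∧ 4 ^ v < s ∧ s ≤ 16 ^ v ∧ s ∉ S := by
    intro s hs
    have h2 := mem_sdiff.mp (hUsub hs)
    have h3 := mem_filter.mp h2.1
    have h4 := mem_Ioc.mp h3.1
    exact ⟨h3.2, h4.1, h4.2, h2.2⟩
  have hUp : ∀ s ∈ U, s.Prime := fun s hs => (hUprop s hs).1
  have h19 : 19 < 4 ^ v := by
    calc 19 < 4 ^ 3 := by norm_num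
      _ ≤ 4 ^ v := Nat.pow_le_pow_right (by norm_num) hv
  have hUne : U.Nonempty := card_pos.mp (by rw [hUc]; omega)
  set g := ∏ s ∈ U, s with hg
  have hgpos : 0 < g := prod_pos (fun s hs => (hUp s hs).pos)
  have : NeZero g := ⟨hgpos.ne'⟩
  have hg1 : 1 < g := by
    obtain ⟨s, hs⟩ := hUne
    have h2 : s ∣ g := dvd_prod_of_mem _ hs
    have h3 := Nat.le_of_dvd hgpos h2
    have h4 := (hUp s hs).one_lt
    omega
  set Y := 2 ^ v with hYdef
  have hYpow : (8 : ℕ) ^ v = Y ^ 3 := by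
    rw [hYdef, show (8 : ℕ) = 2 ^ 3 by norm_num, ← pow_mul, ← pow_mul, mul_comm]
  have hY2 : Y ^ 2 = 4 ^ v := by
    rw [hYdef, show (4 : ℕ) = 2 ^ 2 by norm_num, ← pow_mul, ← pow_mul, mul_comm]
  have hY4 : Y ^ 4 = 16 ^ v := by
    rw [hYdef, show (16 : ℕ) = 2 ^ 4 by norm_num, ← pow_mul, ← pow_mul, mul_comm]
  have hYs : ∀ s ∈ U, s ≤ Y ^ 4 := by
    intro s hs
    rw [hY4]
    exact (hUprop s hs).2.2.1
  have hYbig : 31250 * U.card < Y ^ 2 := by
    rw [hUc, hY2]
    exact hY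
  have hcardA : Y ^ (3 * U.card) ≤ A.card := by
    rw [hAc, hUc, hYdef, ← pow_mul]
    apply Nat.pow_le_pow_right (by norm_num)
    calc v * (3 * j) = 3 * v * j := by ring
      _ ≤ n / 2 := h1
  have hcardB : Y ^ (3 * U.card) ≤ B.card := by
    rw [hBc, hUc, hYdef, ← pow_mul]
    apply Nat.pow_le_pow_right (by norm_num)
    calc v * (3 * j) = 3 * v * j := by ring
      _ ≤ n / 2 := h1
  have hflat : ∀ (C : Finset ℕ), Phi (8 ^ v) U C ≤ 4 * (C.card : ℝ) ^ 2 →
      ∀ U' ⊆ U, offColl U' C * Y ^ (3 * U'.card) ≤ 4 * C.card ^ 2 := by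
    intro C hC U' hU'
    have h2 := offColl_mul_le (8 ^ v) U U' C hU'
    have h3 : ((offColl U' C * Y ^ (3 * U'.card) : ℕ) : ℝ) ≤ ((4 * C.card ^ 2 : ℕ) : ℝ) := by
      push_cast
      calc (offColl U' C : ℝ) * (Y : ℝ) ^ (3 * U'.card)
          = (offColl U' C : ℝ) * (((8 ^ v : ℕ) : ℝ)) ^ U'.card := by
            rw [hYpow, pow_mul]
            push_cast
            rfl
        _ ≤ Phi (8 ^ v) U C := h2
        _ ≤ 4 * (C.card : ℝ) ^ 2 := hC
    exact_mod_cast h3
  have hl : ∀ k, ∀ s ∈ U, ¬ s ∣ mult k := by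
    intro k s hs h2
    have h3 := Nat.le_of_dvd (mult_prime k).pos h2
    have h4 := mult_le k
    have h5 := (hUprop s hs).2.1
    omega
  set Hh := Mult e * ∏ p ∈ S, p with hHh
  have hHpos : 0 < Hh := Nat.mul_pos (Mult_pos e) hSpos
  -- digit supply
  have hdig : ∀ m : ℕ, Hh ≤ m → ∃ D : Finset ℕ, (∀ d ∈ D, d ∣ Hh ∧ ¬ g ∣ d) ∧ D.card ≤ 6 ∧
      ∑ d ∈ D, d ≤ Hh ∧ g ∣ m - ∑ d ∈ D, d := by
    intro m hm
    obtain ⟨p, hp1, hp2⟩ := cover_flat U hUp g hg Y hYs hYbig A B hcardA hcardB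
      (hflat A hPhiA) (hflat B hPhiB) mult hl (m : ZMod g)
    have hx : ∀ k, (p k).1 ∈ A ∧ (p k).2 ∈ B := fun k => mem_product.mp (hp1 k)
    have hxd : ∀ k, (p k).1 ∣ ∏ q ∈ SA, q := fun k => mem_subProds_dvd SA _ (hx k).1
    have hyd : ∀ k, (p k).2 ∣ ∏ q ∈ SB, q := fun k => mem_subProds_dvd SB _ (hx k).2
    set dig : Fin 6 → ℕ := fun k => mult k * ((p k).1 * (p k).2) with hdigdef
    have hprodAB : (∏ q ∈ SA, q) * (∏ q ∈ SB, q) ∣ ∏ q ∈ S, q := by
      rw [← prod_union hdisjAB]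
      apply prod_dvd_prod_of_subset
      exact union_subset hSA hSB'
    have hxy : ∀ k, (p k).1 * (p k).2 ∣ ∏ q ∈ S, q := fun k =>
      (mul_dvd_mul (hxd k) (hyd k)).trans hprodAB
    have hsmallprime : ∀ (k : Fin 6) (T : Finset ℕ), T ⊆ S → mult k ∉ T := by
      intro k T hT hmem
      have := (hSp _ (hT hmem)).2
      have := mult_le k
      omega
    have hdiginj : Function.Injective dig := by
      intro k k' hkk
      by_contra hne
      have h2 : mult k ∣ dig k' := by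
        rw [← hkk]
        exact Dvd.intro _ rfl
      have hpk := mult_prime k
      simp only [hdigdef] at h2
      rcases (Nat.Prime.dvd_mul hpk).mp h2 with h3 | h3
      · have := (Nat.prime_dvd_prime_iff_eq hpk (mult_prime k')).mp h3
        exact hne (mult_inj this)
      · rcases (Nat.Prime.dvd_mul hpk).mp h3 with h4 | h4
        · exact not_dvd_of_dvd_prod SA hSAp _ _ hpk (hsmallprime k SA hSA) (hxd k') h4
        · exact not_dvd_of_dvd_prod SB hSBp _ _ hpk (hsmallprime k SB hSB') (hyd k') h4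
    refine ⟨univ.image dig, ?_, ?_, ?_, ?_⟩
    · intro d hd
      obtain ⟨k, _, rfl⟩ := mem_image.mp hd
      constructor
      · simp only [hdigdef, hHh, Mult]
        apply mul_dvd_mul _ (hxy k)
        exact (mult_dvd k).trans (Dvd.intro_left _ rfl)
      · intro h2
        obtain ⟨s, hs⟩ := hUne
        have h3 : s ∣ dig k := (dvd_prod_of_mem _ hs).trans h2
        have hsp := hUp s hs
        simp only [hdigdef] at h3
        have hsS := (hUprop s hs).2.2.2
        rcases (Nat.Prime.dvd_mul hsp).mp h3 with h4 | h4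
        · exact hl k s hs h4
        · rcases (Nat.Prime.dvd_mul hsp).mp h4 with h5 | h5
          · exact not_dvd_of_dvd_prod SA hSAp _ _ hsp (fun h => hsS (hSA h)) (hxd k) h5
          · exact not_dvd_of_dvd_prod SB hSBp _ _ hsp (fun h => hsS (hSB' h)) (hyd k) h5
    · calc (univ.image dig).card ≤ (univ : Finset (Fin 6)).card := card_image_le
        _ = 6 := by simp
    · rw [sum_image (fun a _ b _ hab => hdiginj hab)]
      have h2 : ∀ k, dig k ≤ mult k * ∏ q ∈ S, q := by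
        intro k
        exact Nat.mul_le_mul_left _ (Nat.le_of_dvd hSpos (hxy k))
      calc ∑ k, dig k ≤ ∑ k, mult k * ∏ q ∈ S, q := sum_le_sum (fun k _ => h2 k)
        _ = 72 * ∏ q ∈ S, q := by rw [← sum_mul, sum_mult]
        _ ≤ Hh := by
            rw [hHh]
            exact Nat.mul_le_mul_right _ ((by norm_num : 72 ≤ 1616615).trans (le_Mult e))
    · rw [sum_image (fun a _ b _ hab => hdiginj hab)]
      have hle : ∑ k, dig k ≤ Hh := by
        have h2 : ∀ k, dig k ≤ mult k * ∏ q ∈ S, q := by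
          intro k
          exact Nat.mul_le_mul_left _ (Nat.le_of_dvd hSpos (hxy k))
        calc ∑ k, dig k ≤ ∑ k, mult k * ∏ q ∈ S, q := sum_le_sum (fun k _ => h2 k)
          _ = 72 * ∏ q ∈ S, q := by rw [← sum_mul, sum_mult]
          _ ≤ Hh := by
              rw [hHh]
              exact Nat.mul_le_mul_right _ ((by norm_num : 72 ≤ 1616615).trans (le_Mult e))
      have hcast : ((∑ k, dig k : ℕ) : ZMod g) = (m : ZMod g) := by
        rw [← hp2]
        push_cast
        refine sum_congr rfl (fun k _ => ?_)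
        simp only [hdigdef]
        push_cast
        ring
      have h3 : (∑ k, dig k) ≡ m [MOD g] := (ZMod.natCast_eq_natCast_iff _ _ _).mp hcast
      exact (Nat.modEq_iff_dvd' (hle.trans hm)).mp h3
  have hnew := Sums.extend hHpos hg1 hP hdig
  refine ⟨S ∪ U, subset_union_left, ?_, ?_, ?_⟩
  · rw [card_union_of_disjoint, hn, hUc]
    rw [disjoint_left]
    intro p hp hp'
    exact (hUprop p hp').2.2.2 hp
  · intro p hp
    rcases mem_union.mp hp with hp | hp
    · exact ⟨(hSp p hp).1, (hSp p hp).2, hSv p hp⟩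
    · have h2 := hUprop p hp
      exact ⟨h2.1, by omega, h2.2.2.1⟩
  · have hdisj : Disjoint S U := by
      rw [disjoint_left]
      intro p hp hp'
      exact (hUprop p hp').2.2.2 hp
    rw [prod_union hdisj, ← mul_assoc]
    exact hnew

end

end Vale.Agent.Egypt
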